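import Vale.Agent.P305C.Vt
import Vale.Agent.P305C.Reach
import Vale.Agent.P305.Bdl.B1

/-!
# Blossoms: definitions and programs
-/

namespace Vale.Agent.P305BL

open Vale.Agent.P305 Vale.Agent.P305E Vale.Agent.P305C Finset

/-- Arcs of the labelled graph: node, outer vertex in this node, inner vertex. -/
abbrev Tr : Type := ℕ × ℕ × ℕ

/-- A matching of nodes and inner vertices inside `E`. -/
def IsM (E l : List Tr) : Prop :=
  (∀ e ∈ l, e ∈ E) ∧ (l.map fun e => e.1).Nodup ∧ (l.map fun e => e.2.2).Nodup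

/-- A largest matching. -/
def MaxM (E l : List Tr) : Prop := IsM E l ∧ ∀ l', IsM E l' → l'.length ≤ l.length

/-- The nodes with an arc. -/
def nodes (E : List Tr) : Finset ℕ := (E.map fun e => e.1).toFinset

/-- The inner vertices with an arc. -/
def inns (E : List Tr) : Finset ℕ := (E.map fun e => e.2.2).toFinset

/-- The nodes with an arc into `Y`. -/
def Nb (E : List Tr) (Y : Finset ℕ) : Finset ℕ := nodes (E.filter fun e => e.2.2 ∈ Y)

/-- The inner vertices with an arc from `P`. -/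
def Nf (E : List Tr) (P : Finset ℕ) : Finset ℕ := inns (E.filter fun e => e.1 ∈ P)

/-- The solver for matchings with arbitrary names. -/
structure BmOK (bm : ℕ → List Tr → M (List Tr)) (c : ℕ) (g : ℕ → ℕ) : Prop where
  impl : Impl fun p : ℕ × List Tr => bm p.1 p.2
  sub : ∀ a, Sub fun N => g (a * Nat.size N + a)
  mono : Monotone g
  spec : ∀ (d B b : ℕ) (E : List Tr), E.length ≤ 4 * 2 ^ b → 2 ^ (c * (b + 1)) ≤ B → d ≤ b →
    Vt d B (bm b E) fun l s => MaxM E l ∧ s ≤ (E.length + 1) * g b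

/-- The arcs `E` form a smallest closed set with one more node than inner vertices that contains
the ends `o`, `o'` of a bridge. -/
structure Blo (E : List Tr) (o o' : ℕ) : Prop where
  mem : o ∈ nodes E
  mem' : o' ∈ nodes E
  card : (nodes E).card = (inns E).card + 1
  surplus : ∀ Y ⊆ inns E, Y.Nonempty → Y.card + 1 ≤ (Nb E Y).card
  minimal : ∀ Y ⊂ inns E, Y.card + 2 ≤ (Nb E Y ∪ {o, o'}).card

/-- The record of a blossom: arcs and the two ends (node, vertex) of the bridge. -/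
abbrev Rc : Type := List Tr × (ℕ × ℕ) × (ℕ × ℕ)

/-- The vertices of the node `p`: a number below `n` is a vertex, all others are blossoms. -/
def Vx (n : ℕ) (rc : ℕ → Rc) (p : ℕ) : Finset ℕ :=
  if p < n then {p} else
    ((nodes (rc p).1).filter (· < p)).attach.biUnion (fun q => Vx n rc q.1) ∪ inns (rc p).1
termination_by p
decreasing_by exact (mem_filter.1 q.2).2

/-- Disjoint nodes `K` with vertex sets `V`, further vertices `Y`, and edges between them. -/
structure Part (n : ℕ) (A : ℕ → ℕ → Prop) (V : ℕ → Finset ℕ) (K Y : Finset ℕ) (E : List Tr) :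
    Prop where
  disj : ∀ p ∈ K, ∀ q ∈ K, p ≠ q → Disjoint (V p) (V q)
  inn : ∀ y ∈ Y, y < n ∧ ∀ p ∈ K, y ∉ V p
  arc : ∀ e ∈ E, e.1 ∈ K ∧ e.2.1 ∈ V e.1 ∧ e.2.2 ∈ Y ∧ A e.2.1 e.2.2

/-- One level of a blossom. -/
structure Lv (n : ℕ) (A : ℕ → ℕ → Prop) (V : ℕ → Finset ℕ) (r : Rc) : Prop where
  part : Part n A V (nodes r.1) (inns r.1) r.1
  blo : Blo r.1 r.2.1.1 r.2.2.1
  br : r.2.1.2 ∈ V r.2.1.1 ∧ r.2.2.2 ∈ V r.2.2.1 ∧ A r.2.1.2 r.2.2.2
  len : r.1.length ≤ 3 * (inns r.1).card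

/-- Nodes that can be expanded. -/
inductive Nd (n : ℕ) (A : ℕ → ℕ → Prop) (par : ℕ → ℕ × Bool) (rc : ℕ → Rc) : ℕ → Prop
  | leaf (v : ℕ) (h : v < n) : Nd n A par rc v
  | node (p : ℕ) (h : n ≤ p) (lv : Lv n A (Vx n rc) (rc p))
      (pk : ∀ q ∈ nodes (rc p).1, q < p ∧ par q = (p, false))
      (py : ∀ y ∈ inns (rc p).1, par y = (p, true))
      (kids : ∀ q ∈ nodes (rc p).1, Nd n A par rc q) : Nd n A par rc p

/-- The store of blossoms: parent (with a flag for inner vertices), records, next name. -/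
structure St where
  par : Arr (ℕ × Bool)
  rc : Arr Rc
  nx : ℕ

/-- The encoding of the store. -/
def St.enc (s : St) : Arr (ℕ × Bool) × Arr Rc × ℕ := (s.par, s.rc, s.nx)

instance : Rep St := Rep.comap St.enc

@[fun_prop] theorem St.ppar : Pure St.par := Pure.of_comap St.enc (h := fun p => p.1) (by fun_prop)
@[fun_prop] theorem St.prc : Pure St.rc := Pure.of_comap St.enc (h := fun p => p.2.1) (by fun_prop)
@[fun_prop] theorem St.pnx : Pure St.nx := Pure.of_comap St.enc (h := fun p => p.2.2) (by fun_prop)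
@[fun_prop] theorem St.pmk {α : Type} [Rep α] {a : α → Arr (ℕ × Bool)} {b : α → Arr Rc}
    {c : α → ℕ} (ha : Pure a) (hb : Pure b) (hc : Pure c) :
    Pure fun x => St.mk (a x) (b x) (c x) := Pure.to_comap St.enc (by unfold St.enc; fun_prop)

/-- The empty store. -/
def St.init (n : ℕ) : St := ⟨Arr.const (0, false), Arr.const ([], (0, 0), (0, 0)), n⟩

/-- The vertices of the node `p`. -/
def St.V (s : St) (n p : ℕ) : Finset ℕ := Vx n s.rc.get p

/-- `p` is a node of the store. -/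
def St.Node (s : St) (n : ℕ) (A : ℕ → ℕ → Prop) (p : ℕ) : Prop :=
  p < s.nx ∧ Nd n A s.par.get s.rc.get p

/-- A new blossom with the name `s.nx`. -/
def contract (s : St) (r : Rc) : M St :=
  num (s.nx + 1) >>= fun nx =>
    foldP (fun (a : Arr (ℕ × Bool)) (e : Tr) => (a.set e.1 (s.nx, false)).set e.2.2 (s.nx, true))
      s.par r.1 >>= fun par => pure ⟨par, s.rc.set s.nx r, nx⟩

/-- `m` is a perfect matching of the set `R`. -/
def PMon (A : ℕ → ℕ → Prop) (R : Finset ℕ) (m : ℕ → ℕ) : Prop :=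
  ∀ v ∈ R, m v ∈ R ∧ m (m v) = v ∧ m v ≠ v ∧ A v (m v)

/-- The level of the blossom `(s.par.get x).1` with the exposed element `x`. -/
def level (bm : ℕ → List Tr → M (List Tr)) (b : ℕ) (s : St) (x : ℕ)
    (p : List (ℕ × ℕ) × List (ℕ × ℕ)) : M (List (ℕ × ℕ) × List (ℕ × ℕ)) :=
  filterP (fun e : Tr => if (s.par.get x).2 = true then
      decide (e.2.2 ≠ x) && decide (e.1 ≠ (s.rc.get (s.par.get x).1).2.1.1) &&
        decide (e.1 ≠ (s.rc.get (s.par.get x).1).2.2.1)
    else decide (e.1 ≠ x)) (s.rc.get (s.par.get x).1).1 >>= fun E => bm b E >>= fun l =>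
  foldP (fun (q : List (ℕ × ℕ) × List (ℕ × ℕ)) (e : Tr) => ((e.1, e.2.1) :: q.1, e.2 :: q.2))
    (if (s.par.get x).2 = true then
      ((s.rc.get (s.par.get x).1).2.1 :: (s.rc.get (s.par.get x).1).2.2 :: p.1,
        ((s.rc.get (s.par.get x).1).2.1.2, (s.rc.get (s.par.get x).1).2.2.2) :: p.2)
    else p) l

/-- One step of the expansion: the stack holds pairs (top node, current element). -/
def xstep (bm : ℕ → List Tr → M (List Tr)) (b : ℕ) (s : St)
    (p : List (ℕ × ℕ) × List (ℕ × ℕ)) :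
    M ((List (ℕ × ℕ) × List (ℕ × ℕ)) ⊕ List (ℕ × ℕ)) :=
  caseL p.1 (pure (.inr p.2)) fun j rest =>
    if j.1 = j.2 then pure (.inl (rest, p.2)) else
      level bm b s j.2 ((j.1, (s.par.get j.2).1) :: rest, p.2) >>= fun q => pure (.inl q)

/-- The list `out` with the edges of perfect matchings of the sets `V p - z`, for all
jobs `(p, z)`. -/
def xpairs (bm : ℕ → List Tr → M (List Tr)) (n b : ℕ) (s : St) (jobs out : List (ℕ × ℕ)) :
    M (List (ℕ × ℕ)) :=
  loopM (xstep bm b s) (4 * (jobs.map fun j => (s.V n j.1).card).sum + jobs.length + 1) (jobs, out)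

/-- Pairs are written into the partner array. -/
def writeP (out : List (ℕ × ℕ)) (mt : Arr ℕ) : M (Arr ℕ) :=
  foldP (fun (a : Arr ℕ) (e : ℕ × ℕ) => (a.set e.1 e.2).set e.2 e.1) mt out

/-- The two nodes `o`, `o'` are matched by the edge `u u'` and expanded. -/
def commit (bm : ℕ → List Tr → M (List Tr)) (n b : ℕ) (s : St) (o u o' u' : ℕ) (mt : Arr ℕ) :
    M (Arr ℕ) :=
  xpairs bm n b s [(o, u), (o', u')] [(u, u')] >>= fun out => writeP out mt

/-- Some vertex of the node `p`. -/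
def St.rep (s : St) (n p : ℕ) : ℕ := if p < n then p else (s.rc.get p).2.1.2

/-- The nodes `P` and the inner vertices `Y` are matched along `E` and expanded; the result is the
partner array and the list of the exposed vertices. -/
def dissolve (bm : ℕ → List Tr → M (List Tr)) (n b : ℕ) (s : St) (P Y : List ℕ) (E : List Tr)
    (mt : Arr ℕ) : M (Arr ℕ × List ℕ) :=
  bm b E >>= fun l =>
  foldP (fun (a : Arr Bool × Arr Bool) (e : Tr) => (a.1.set e.1 true, a.2.set e.2.2 true))
    (Arr.const false, Arr.const false) l >>= fun cv =>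
  filterP (fun p => !cv.1.get p) P >>= fun P' =>
  filterP (fun y => !cv.2.get y) Y >>= fun Y' =>
  foldP (fun (q : List (ℕ × ℕ) × List ℕ) p => ((p, s.rep n p) :: q.1, s.rep n p :: q.2))
    ([], Y') P' >>= fun jx =>
  foldP (fun (q : List (ℕ × ℕ) × List (ℕ × ℕ)) (e : Tr) => ((e.1, e.2.1) :: q.1, e.2 :: q.2))
    (jx.1, []) l >>= fun jo =>
  xpairs bm n b s jo.1 jo.2 >>= fun out => writeP out mt >>= fun m =>
  foldP (fun (a : Arr ℕ) x => a.set x x) m jx.2 >>= fun m' => pure (m', jx.2)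

/-- The partner of an inner vertex. -/
def mateP (l : List Tr) : M (Arr ℕ) :=
  foldP (fun (a : Arr ℕ) (e : Tr) => a.set e.2.2 e.1) (Arr.const 0) l

/-- The vertices that can be reached from `src` along the pairs `L`. -/
def reachL (L : List (ℕ × ℕ)) (src : List ℕ) : M RS :=
  foldP (fun (a : Arr (List ℕ)) (e : ℕ × ℕ) => a.set e.1 (e.2 :: a.get e.1)) (Arr.const []) L >>=
    fun adj => reach (fun v => pure (adj.get v)) (src.length + L.length + 1) src

/-- Nodes, inner vertices, arcs. -/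
abbrev Pc : Type := List ℕ × List ℕ × List Tr

/-- The blossom of the bridge `o o'` in a closed set without dead part. -/
def bloss (bm : ℕ → List Tr → M (List Tr)) (b : ℕ) (Y : List ℕ) (E : List Tr) (o o' : ℕ) : M Pc :=
  filterP (fun e : Tr => decide (e.1 ≠ o)) E >>= fun E' => bm b E' >>= fun l =>
  mateP l >>= fun m => mapP (fun e : Tr => (m.get e.2.2, e.1)) E >>= fun L =>
  reachL L [o, o'] >>= fun r =>
  filterP (fun y => r.1.get (m.get y)) Y >>= fun YB =>
  filterP (fun e : Tr => r.1.get (m.get e.2.2)) E >>= fun EB => pure (r.2.2, YB, EB)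

/-- The dead part of a closed set, and the rest. -/
def dead (bm : ℕ → List Tr → M (List Tr)) (b : ℕ) (P Y : List ℕ) (E : List Tr) : M (Pc × Pc) :=
  bm b E >>= fun l => mateP l >>= fun m =>
  foldP (fun (a : Arr Bool × Arr Bool) (e : Tr) => (a.1.set e.1 true, a.2.set e.2.2 true))
    (Arr.const false, Arr.const false) l >>= fun cv =>
  filterP (fun p => !cv.1.get p) P >>= fun ex =>
  filterP (fun e : Tr => cv.2.get e.2.2) E >>= fun E' =>
  mapP (fun e : Tr => (e.1, m.get e.2.2)) E' >>= fun L => reachL L ex >>= fun r =>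
  filterP (fun p => !r.1.get p) P >>= fun P0 =>
  filterP (fun y => !(cv.2.get y && r.1.get (m.get y))) Y >>= fun Y0 =>
  filterP (fun e : Tr => !(cv.2.get e.2.2 && r.1.get (m.get e.2.2))) E >>= fun E0 =>
  filterP (fun p => r.1.get p) P >>= fun P1 =>
  filterP (fun y => cv.2.get y && r.1.get (m.get y)) Y >>= fun Y1 =>
  filterP (fun e : Tr => r.1.get e.1) E >>= fun E1 => pure ((P0, Y0, E0), (P1, Y1, E1))

/-- The result of `dead`: the dead part `D` is closed and its nodes can be matched, the rest `L`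
has a surplus of nodes. -/
structure DeadRes (P Y : List ℕ) (E : List Tr) (D L : Pc) : Prop where
  subP : D.1.Sublist P ∧ L.1.Sublist P
  subY : D.2.1.Sublist Y ∧ L.2.1.Sublist Y
  subE : D.2.2.Sublist E ∧ L.2.2.Sublist E
  parP : ∀ p ∈ P, p ∈ L.1 ↔ p ∉ D.1
  parY : ∀ y ∈ Y, y ∈ L.2.1 ↔ y ∉ D.2.1
  lenP : D.1.length + L.1.length = P.length
  lenY : D.2.1.length + L.2.1.length = Y.length
  arcD : ∀ e, e ∈ D.2.2 ↔ e ∈ E ∧ e.2.2 ∈ D.2.1
  arcL : ∀ e, e ∈ L.2.2 ↔ e ∈ E ∧ e.1 ∈ L.1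
  closed : ∀ e ∈ D.2.2, e.1 ∈ D.1
  head : ∀ e ∈ L.2.2, e.2.2 ∈ L.2.1
  sat : ∃ l, IsM D.2.2 l ∧ l.length = D.1.length
  surplus : ∀ Y' ⊆ L.2.1.toFinset, Y'.Nonempty → Y'.card + 1 ≤ (Nb L.2.2 Y').card
  sig : (L.1 = [] ∧ L.2.1 = []) ∨ L.2.1.length + 1 ≤ L.1.length

/-- The result of `bloss`. -/
structure BloRes (P Y : List ℕ) (E : List Tr) (o o' : ℕ) (C : Pc) : Prop where
  nodup : C.1.Nodup
  subP : ∀ p ∈ C.1, p ∈ P
  subY : C.2.1.Sublist Y
  subE : C.2.2.Sublist E
  arc : ∀ e, e ∈ C.2.2 ↔ e ∈ E ∧ e.2.2 ∈ C.2.1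
  nodes : nodes C.2.2 = C.1.toFinset
  inns : inns C.2.2 = C.2.1.toFinset
  blo : Blo C.2.2 o o'

section impl
variable {α : Type} [Rep α] {bm : ℕ → List Tr → M (List Tr)}

@[fun_prop] theorem impl_contract {s : α → St} {r : α → Rc} (hs : Pure s) (hr : Pure r) :
    Impl fun a => contract (s a) (r a) := by
  unfold contract
  fun_prop

theorem impl_xpairs (h : Impl fun p : ℕ × List Tr => bm p.1 p.2) {n b : α → ℕ} {s : α → St}
    {j o : α → List (ℕ × ℕ)} (hb : Pure b) (hs : Pure s) (hj : Pure j) (ho : Pure o) :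
    Impl fun a => xpairs bm (n a) (b a) (s a) (j a) (o a) := by
  unfold xpairs xstep level
  fun_prop

theorem impl_commit (h : Impl fun p : ℕ × List Tr => bm p.1 p.2) {n b o u o' u' : α → ℕ}
    {s : α → St} {mt : α → Arr ℕ} (hb : Pure b) (hs : Pure s) (ho : Pure o) (hu : Pure u)
    (ho' : Pure o') (hu' : Pure u') (hm : Pure mt) :
    Impl fun a => commit bm (n a) (b a) (s a) (o a) (u a) (o' a) (u' a) (mt a) := by
  unfold commit writeP
  refine Impl.bind (impl_xpairs h hb hs (by fun_prop) (by fun_prop)) (by fun_prop)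

theorem impl_dissolve (h : Impl fun p : ℕ × List Tr => bm p.1 p.2) {n b : α → ℕ} {s : α → St}
    {P Y : α → List ℕ} {E : α → List Tr} {mt : α → Arr ℕ} (hn : Pure n) (hb : Pure b) (hs : Pure s)
    (hP : Pure P) (hY : Pure Y) (hE : Pure E) (hm : Pure mt) :
    Impl fun a => dissolve bm (n a) (b a) (s a) (P a) (Y a) (E a) (mt a) := by
  unfold dissolve xpairs xstep level writeP St.rep
  fun_prop

@[fun_prop] theorem impl_reachL {L : α → List (ℕ × ℕ)} {src : α → List ℕ} (hL : Pure L)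
    (hs : Pure src) : Impl fun a => reachL (L a) (src a) := by
  unfold reachL
  fun_prop

theorem impl_bloss (h : Impl fun p : ℕ × List Tr => bm p.1 p.2) {b o o' : α → ℕ}
    {Y : α → List ℕ} {E : α → List Tr} (hb : Pure b) (hY : Pure Y) (hE : Pure E)
    (ho : Pure o) (ho' : Pure o') :
    Impl fun a => bloss bm (b a) (Y a) (E a) (o a) (o' a) := by
  unfold bloss mateP
  fun_prop

theorem impl_dead (h : Impl fun p : ℕ × List Tr => bm p.1 p.2) {b : α → ℕ}
    {P Y : α → List ℕ} {E : α → List Tr} (hb : Pure b) (hP : Pure P) (hY : Pure Y) (hE : Pure E) :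
    Impl fun a => dead bm (b a) (P a) (Y a) (E a) := by
  unfold dead mateP
  fun_prop

end impl

end Vale.Agent.P305BL
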