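import Vale.Agent.P305BL.Dead

/-!
# Blossoms: the smallest closed set that contains a bridge
-/

namespace Vale.Agent.P305BL

open Vale.Agent.P305 Vale.Agent.P305E Vale.Agent.P305C Finset

variable {E l : List Tr}

/-- With a surplus of one node, every node can be exposed. -/
theorem expose {K Y : Finset ℕ} {x : ℕ} (ha : ∀ e ∈ E, e.1 ∈ K ∧ e.2.2 ∈ Y)
    (hc : K.card = Y.card + 1) (sp : ∀ Y' ⊆ Y, Y'.Nonempty → Y'.card + 1 ≤ (Nb E Y').card)
    (hx : x ∈ K) (hl : MaxM (E.filter fun e => decide (e.1 ≠ x)) l) :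
    nodes l = K.erase x ∧ inns l = Y := by
  have m : ∀ e, e ∈ (E.filter fun e => decide (e.1 ≠ x)) ↔ e ∈ E ∧ e.1 ≠ x := by simp
  have := hall_inn hl (Y := Y) (d := 0) fun Y hY => by
    rcases Y.eq_empty_or_nonempty with rfl | hn
    · simp
    have := (sp Y hY hn).trans ((card_le_card (t := insert x
      (Nb (E.filter fun e => decide (e.1 ≠ x)) Y)) fun q hq => by
        obtain ⟨e, h1, h2, rfl⟩ := mem_Nb.1 hq
        exact mem_insert.2 ((eq_or_ne e.1 x).imp id fun c =>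
          mem_Nb.2 ⟨e, (m e).2 ⟨h1, c⟩, h2, rfl⟩)).trans (card_insert_le _ _))
    omega
  refine ⟨hl.1.nodes_eq (fun e he => mem_erase.2 ⟨((m e).1 he).2, (ha e ((m e).1 he).1).1⟩) ?_,
    hl.1.inns_eq (fun e he => (ha e ((m e).1 he).1).2) this⟩
  rw [card_erase_of_mem hx, hc]
  omega

variable {bm : ℕ → List Tr → M (List Tr)} {c : ℕ} {g : ℕ → ℕ} {d B b : ℕ}

/-- **The blossom of a bridge.** -/
theorem bloss_vt (h : BmOK bm c g) (hB : 2 ^ (c * (b + 1)) ≤ B) (hd : d ≤ b) {P Y : List ℕ}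
    {o o' : ℕ} (hP : P.Nodup) (hY : Y.Nodup) (ha : ∀ e ∈ E, e.1 ∈ P ∧ e.2.2 ∈ Y)
    (hc : P.length = Y.length + 1)
    (sp : ∀ Y' ⊆ Y.toFinset, Y'.Nonempty → Y'.card + 1 ≤ (Nb E Y').card) (ho : o ∈ P)
    (ho' : o' ∈ P) (ne : o ≠ o') (hE : E.length ≤ 4 * 2 ^ b) :
    Vt d B (bloss bm b Y E o o') fun C t => BloRes P Y E o o' C ∧
      t ≤ (P.length + Y.length + E.length + 1) * bG g b := by
  unfold bloss mateP
  have fl' := List.length_filter_le (fun e : Tr => decide (e.1 ≠ o)) E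
  refine Vt.tbind' ((Tri_filterP _ _ _).2 ((h.spec d B b _ (by omega) hB hd).bind ?_))
  rintro l t ⟨hl, ht⟩
  obtain ⟨m, m0, m1⟩ := foldl_mate hl.1
  obtain ⟨c1, c2⟩ := expose (K := P.toFinset) (Y := Y.toFinset) (by simpa using ha)
    (by rw [List.toFinset_card_of_nodup hP, List.toFinset_card_of_nodup hY, hc]) sp
    (List.mem_toFinset.2 ho) hl
  obtain ⟨inj, mt⟩ := hl.1.mate m1
  rw [c1, c2] at mt
  rw [c2] at inj
  refine Vt.of_tri (cn := true) ?_
  simp only [Tri_bind, Tri_foldP, Tri_filterP, Tri_mapP, Tri_pure, m0]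
  refine (reachL_tri _ _).mono ?_
  rintro r t' ⟨hr, ht'⟩
  have my : ∀ y, y ∈ (Y.filter fun y => r.1.get (m.get y)).toFinset ↔ y ∈ Y ∧ m.get y ∈ r.2.2 :=
    fun y => by rw [List.mem_toFinset, List.mem_filter, hr.vis]
  have me : ∀ e, e ∈ (E.filter fun e => r.1.get (m.get e.2.2)) ↔ e ∈ E ∧ m.get e.2.2 ∈ r.2.2 :=
    fun e => by rw [List.mem_filter, hr.vis]
  have cl : ∀ e ∈ E, m.get e.2.2 ∈ r.2.2 → e.1 ∈ r.2.2 := fun e he =>
    hr.closed _ (List.mem_map_of_mem he)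
  have ind : ∀ S : ℕ → Prop, S o → S o' → (∀ e ∈ E, S (m.get e.2.2) → S e.1) →
      ∀ v ∈ r.2.2, S v := fun S k1 k2 k3 => hr.ind S (by simp [k1, k2]) fun e he _ => by
    obtain ⟨x, hx, rfl⟩ := List.mem_map.1 he
    exact k3 x hx
  have sP := ind (· ∈ P) ho ho' fun e he _ => (ha e he).1
  have sl : (Y.filter fun y => r.1.get (m.get y)).Sublist Y := List.filter_sublist
  have se : (E.filter fun e => r.1.get (m.get e.2.2)).Sublist E := List.filter_sublist
  generalize (Y.filter fun y => r.1.get (m.get y)) = YB at my sl ⊢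
  generalize (E.filter fun e => r.1.get (m.get e.2.2)) = EB at me se ⊢
  have sY : YB.toFinset ⊆ Y.toFinset := fun y hy => List.mem_toFinset.2 ((my y).1 hy).1
  have img : ∀ Z ⊆ Y.toFinset, (insert o (Z.image m.get)).card = Z.card + 1 := fun Z hZ => by
    rw [card_insert_of_notMem, card_image_of_injOn (inj.mono hZ)]
    intro k
    obtain ⟨z, hz, k⟩ := mem_image.1 k
    exact (mem_erase.1 (mt z (hZ hz)).1).1 k
  have pre : ∀ v ∈ r.2.2, v ≠ o → ∃ y ∈ YB.toFinset, m.get y = v := fun v hv k => by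
    obtain ⟨e, he, rfl⟩ := mem_nodes.1 (c1 ▸ mem_erase.2 ⟨k, List.mem_toFinset.2 (sP v hv)⟩)
    exact ⟨_, (my _).2 ⟨(ha e (List.mem_filter.1 (hl.1.1 e he)).1).2, by rwa [m1 e he]⟩, m1 e he⟩
  have eR : r.2.2.toFinset = insert o (YB.toFinset.image m.get) := by
    ext v
    rw [List.mem_toFinset, mem_insert, mem_image]
    refine ⟨fun hv => (eq_or_ne v o).imp id (pre v hv), ?_⟩
    rintro (rfl | ⟨y, hy, rfl⟩)
    · exact hr.src_mem _ (by simp)
    · exact ((my y).1 hy).2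
  have cR := img _ sY
  rw [← eR] at cR
  have nb : ∀ Z ⊆ YB.toFinset, Nb EB Z = Nb E Z := fun Z hZ => by
    ext q
    simp only [mem_Nb, me]
    exact ⟨fun ⟨e, k1, k2⟩ => ⟨e, k1.1, k2⟩, fun ⟨e, k1, k2⟩ =>
      ⟨e, ⟨k1, ((my _).1 (hZ k2.1)).2⟩, k2⟩⟩
  have eI : inns EB = YB.toFinset := by
    ext y
    rw [mem_inns, my]
    refine ⟨?_, fun k => ?_⟩
    · rintro ⟨e, he, rfl⟩
      exact ⟨(ha e ((me e).1 he).1).2, ((me e).1 he).2⟩
    · obtain ⟨-, e, he, rfl, -⟩ := mt y (List.mem_toFinset.2 k.1)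
      exact ⟨e, (me e).2 ⟨(List.mem_filter.1 he).1, k.2⟩, rfl⟩
  have eN : nodes EB = r.2.2.toFinset := by
    refine eq_of_subset_of_card_le (fun q hq => ?_) ?_
    · obtain ⟨e, he, rfl⟩ := mem_nodes.1 hq
      exact List.mem_toFinset.2 (cl e ((me e).1 he).1 ((me e).1 he).2)
    · obtain ⟨y, hy, -⟩ := pre o' (hr.src_mem _ (by simp)) ne.symm
      rw [cR]
      exact (sp _ sY ⟨y, hy⟩).trans (nb _ Subset.rfl ▸ card_le_card (Nb_sub _ _))
  refine ⟨⟨hr.nodup, sP, sl, se, fun e => ?_, eN, eI,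
    eN ▸ List.mem_toFinset.2 (hr.src_mem _ (by simp)),
    eN ▸ List.mem_toFinset.2 (hr.src_mem _ (by simp)), by rw [eN, eI, cR], fun Z hZ hn => ?_,
    fun Z hZ => by_contra fun c' => ?_⟩, ?_⟩
  · rw [me, ← List.mem_toFinset (l := YB), my]
    exact and_congr_right fun he => by simp only [(ha e he).2, true_and]
  · rw [eI] at hZ
    rw [nb Z hZ]
    exact sp Z (hZ.trans sY) hn
  · rw [eI] at hZ
    rw [nb Z hZ.1] at c'
    have z1 := img Z (hZ.1.trans sY)
    have z2 : insert o (Z.image m.get) ⊆ Nb E Z ∪ {o, o'} := insert_subset (by simp) fun q hq => by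
      obtain ⟨z, hz, rfl⟩ := mem_image.1 hq
      obtain ⟨-, e, he, k1, k2⟩ := mt z (sY (hZ.1 hz))
      exact mem_union_left _ (mem_Nb.2 ⟨e, (List.mem_filter.1 he).1, k1 ▸ hz, k2⟩)
    have z3 := eq_of_subset_of_card_le z2 (by omega)
    have z4 := ind (· ∈ insert o (Z.image m.get)) (by simp) (by simp [z3]) fun e he k => by
      have hy := List.mem_toFinset.2 (ha e he).2
      obtain ⟨z, hz, k'⟩ := mem_image.1 ((mem_insert.1 k).resolve_left (mem_erase.1 (mt _ hy).1).1)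
      exact z3 ▸ mem_union_left _ (mem_Nb.2 ⟨e, he, inj (sY (hZ.1 hz)) hy k' ▸ hz, rfl⟩)
    have z5 := card_le_card (s := r.2.2.toFinset) fun v hv => z4 v (List.mem_toFinset.1 hv)
    have := card_lt_card hZ
    omega
  · have := hl.1.length_le
    have := Nat.mul_le_mul_right (g b) (Nat.succ_le_succ fl')
    simp only [List.length_map, List.length_cons, List.length_nil] at ht'
    unfold bG
    nlinarith [Nat.zero_le (P.length * g b), Nat.zero_le (E.length * g b),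
      Nat.zero_le (Y.length * g b)]

end Vale.Agent.P305BL
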