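import Vale.Agent.P305BL.Hall
import Vale.Agent.P305C.Cmcf
import Vale.Agent.P305F.Main

/-!
# Blossoms: largest matchings with arbitrary names
-/

namespace Vale.Agent.P305BL

open Vale.Agent.P305E Vale.Agent.P305F Vale.Agent.P305C Finset

/-- The names are made small, the solver is called, the arcs are looked up in a table. -/
def bmP (bip : ℕ → ℕ → ℕ → List (ℕ × ℕ) → M (List (ℕ × ℕ))) (b : ℕ) (E : List Tr) :
    M (List Tr) :=
  mapP (fun e : Tr => e.1) E >>= fun qs => zipIdxP qs >>= fun zq =>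
  foldP (fun (s : Arr ℕ) p => s.set p.1 p.2) (Arr.const 0) zq >>= fun iq =>
  mapP (fun e : Tr => e.2.2) E >>= fun ys => zipIdxP ys >>= fun zy =>
  foldP (fun (s : Arr ℕ) p => s.set p.1 p.2) (Arr.const 0) zy >>= fun iy =>
  mapP (fun e : Tr => (iq.get e.1, iy.get e.2.2)) E >>= fun E' =>
  foldP (fun (t : Arr (Arr Tr)) (e : Tr) =>
    t.set (iq.get e.1) ((t.get (iq.get e.1)).set (iy.get e.2.2) e))
    (Arr.const (Arr.const (0, 0, 0))) E >>= fun t =>
  lenP E >>= fun m => num (b + 4) >>= fun b' => bip b' m m E' >>= fun l =>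
  mapP (fun p : ℕ × ℕ => (t.get p.1).get p.2) l

theorem foldl_tab2 (f g : Tr → ℕ) (E : List Tr) (t0 : Arr (Arr Tr)) (e : Tr) (he : e ∈ E) :
    ∃ e' ∈ E, ((E.foldl (fun (t : Arr (Arr Tr)) (e : Tr) =>
      t.set (f e) ((t.get (f e)).set (g e) e)) t0).get (f e)).get (g e) = e' ∧
      f e' = f e ∧ g e' = g e := by
  induction E using List.reverseRecOn with
  | nil => simp at he
  | append_singleton l x ih =>
    simp only [List.foldl_append, List.foldl_cons, List.foldl_nil]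
    by_cases h : f e = f x ∧ g e = g x
    · exact ⟨x, by simp, by simp [h.1, h.2], h.1.symm, h.2.symm⟩
    · have hl : e ∈ l := by
        rcases List.mem_append.1 he with k | k
        · exact k
        · rw [List.mem_singleton.1 k] at h
          simp at h
      obtain ⟨e', h1, h2, h3⟩ := ih hl
      refine ⟨e', by simp [h1], ?_, h3⟩
      rw [← h2, Arr.get_set]
      split_ifs with c
      · rw [Arr.get_set_ne _ (fun k => h ⟨c, k⟩), c]
      · rfl

theorem bm_of_bip {bip : ℕ → ℕ → ℕ → List (ℕ × ℕ) → M (List (ℕ × ℕ))} {c : ℕ} {g : ℕ → ℕ}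
    (h : BipOK bip c g) : BmOK (bmP bip) (5 * c + 5) fun b => 3 * g (b + 4) + 12 := by
  refine ⟨?_, fun a => ?_, fun x y hxy => ?_, fun d B b E hE hB hd => ?_⟩
  · have := h.impl
    unfold bmP
    fun_prop
  · refine (((Sub.const 3).mul (h.sub (a + 4))).add (Sub.const 12)).mono fun N _ => ?_
    have := h.mono (show a * Nat.size N + a + 4 ≤ (a + 4) * Nat.size N + (a + 4) by
      nlinarith [Nat.zero_le (Nat.size N)])
    omega
  · have := h.mono (show x + 4 ≤ y + 4 by omega)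
    show 3 * g (x + 4) + 12 ≤ 3 * g (y + 4) + 12
    omega
  have e1 : 2 ^ (b + 4) = 16 * 2 ^ b := by ring
  have e2 : 2 ^ (b + 4) ≤ B := le_trans (Nat.pow_le_pow_right (by omega) (by nlinarith)) hB
  have e3 : b + 4 ≤ B := Nat.lt_two_pow_self.le.trans e2
  unfold bmP
  refine Vt.tbind' ((Tri_mapP _ _ _).2 (Vt.tbind' ((Tri_zipIdxP _ _).2
    ⟨by simp only [List.length_map]; omega, Vt.tbind' ((Tri_foldP _ _ _ _).2 ?_)⟩)))
  have i1 := foldl_idx (E.map fun e : Tr => e.1)
  generalize (E.map fun e : Tr => e.1).zipIdx.foldl (fun (s : Arr ℕ) p => s.set p.1 p.2)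
    (Arr.const 0) = iq at i1 ⊢
  refine Vt.tbind' ((Tri_mapP _ _ _).2 (Vt.tbind' ((Tri_zipIdxP _ _).2
    ⟨by simp only [List.length_map]; omega, Vt.tbind' ((Tri_foldP _ _ _ _).2 ?_)⟩)))
  have i2 := foldl_idx (E.map fun e : Tr => e.2.2)
  generalize (E.map fun e : Tr => e.2.2).zipIdx.foldl (fun (s : Arr ℕ) p => s.set p.1 p.2)
    (Arr.const 0) = iy at i2 ⊢
  refine Vt.tbind' ((Tri_mapP _ _ _).2 (Vt.tbind' ((Tri_foldP _ _ _ _).2 ?_)))
  have i3 := foldl_tab2 (fun e => iq.get e.1) (fun e => iy.get e.2.2) E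
    (Arr.const (Arr.const (0, 0, 0)))
  generalize E.foldl (fun (t : Arr (Arr Tr)) (e : Tr) =>
    t.set (iq.get e.1) ((t.get (iq.get e.1)).set (iy.get e.2.2) e))
    (Arr.const (Arr.const (0, 0, 0))) = t at i3 ⊢
  have key : ∀ (φ : Tr → ℕ) (ix : Arr ℕ), (∀ v ∈ E.map φ, (E.map φ)[ix.get v]? = some v) →
      (∀ e ∈ E, ix.get (φ e) < E.length) ∧
        ∀ e ∈ E, ∀ e' ∈ E, ix.get (φ e) = ix.get (φ e') → φ e = φ e' := fun φ ix k =>
    ⟨fun e he => by
      simpa using (List.getElem?_eq_some_iff.1 (k _ (List.mem_map_of_mem he))).1,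
    fun e he e' he' c => by
      have := k _ (List.mem_map_of_mem he)
      rw [c, k _ (List.mem_map_of_mem he')] at this
      exact (Option.some.inj this).symm⟩
  obtain ⟨a1, a2⟩ := key _ iq i1
  obtain ⟨b1, b2⟩ := key _ iy i2
  refine Vt.tbind' ((Tri_lenP _ _).2 ⟨by dsimp only; omega, Vt.num_bind e3 ?_⟩)
  refine (bip_vt h (b := b + 4) (fun p hp => ?_) (by simp only [List.length_map]; omega)
    (le_trans (Nat.pow_le_pow_right (by omega) (by nlinarith)) hB) (by omega)).bind ?_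
  · obtain ⟨e, he, rfl⟩ := List.mem_map.1 hp
    exact ⟨a1 e he, b1 e he⟩
  rintro l s ⟨hl, rfl⟩
  have bk : ∀ p ∈ l, (t.get p.1).get p.2 ∈ E ∧ iq.get ((t.get p.1).get p.2).1 = p.1 ∧
      iy.get ((t.get p.1).get p.2).2.2 = p.2 := fun p hp => by
    obtain ⟨e, he, rfl⟩ := List.mem_map.1 (hl.1.1 p hp)
    obtain ⟨e', h1, h2, h3⟩ := i3 e he
    dsimp only at h2 ⊢
    rw [h2]
    exact ⟨h1, h3⟩
  refine Vt.of_tri (cn := true) ((Tri_mapP _ _ _).2 ⟨⟨⟨fun e he => ?_, ?_, ?_⟩, fun l' hl' => ?_⟩,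
    ?_⟩)
  · obtain ⟨p, hp, rfl⟩ := List.mem_map.1 he
    exact (bk p hp).1
  · refine List.Nodup.of_map iq.get ?_
    rw [List.map_map, List.map_map]
    exact (List.map_congr_left (g := Prod.fst) fun p hp => (bk p hp).2.1).symm ▸ hl.1.2.1
  · refine List.Nodup.of_map iy.get ?_
    rw [List.map_map, List.map_map]
    exact (List.map_congr_left (g := Prod.snd) fun p hp => (bk p hp).2.2).symm ▸ hl.1.2.2
  · have := hl.2 (l'.map fun e : Tr => (iq.get e.1, iy.get e.2.2)) ⟨fun p hp => ?_, ?_, ?_⟩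
    · simpa using this
    · obtain ⟨e, he, rfl⟩ := List.mem_map.1 hp
      exact List.mem_map_of_mem (hl'.1 e he)
    · rw [List.map_map]
      exact (List.Nodup.of_map _ hl'.2.1).map_on fun e he e' he' k =>
        hl'.inj1 he he' (a2 e (hl'.1 e he) e' (hl'.1 e' he') k)
    · rw [List.map_map]
      exact (List.Nodup.of_map _ hl'.2.1).map_on fun e he e' he' k =>
        hl'.inj2 he he' (b2 e (hl'.1 e he) e' (hl'.1 e' he') k)
  · have : l.length ≤ E.length := by
      simpa using (List.subperm_of_subset (List.Nodup.of_map _ hl.1.2.1) hl.1.1).length_le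
    simp only [List.length_map, List.length_zipIdx]
    nlinarith [Nat.zero_le (g (b + 4)), Nat.zero_le (E.length * g (b + 4))]

/-- **Largest matchings in almost-linear time.** -/
theorem exists_bm : ∃ bm c g, BmOK bm c g := by
  obtain ⟨bip, c, g, h⟩ := exists_bip
  exact ⟨_, _, _, bm_of_bip h⟩

end Vale.Agent.P305BL
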