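import Vale.Agent.P305BL.Dis

/-!
# Blossoms: the dead part of a closed set
-/

namespace Vale.Agent.P305BL

open Vale.Agent.P305 Vale.Agent.P305E Vale.Agent.P305C Finset

/-- The result of a search along the pairs `L`. -/
structure RL (L : List (ℕ × ℕ)) (src : List ℕ) (r : RS) : Prop where
  vis : ∀ v, r.1.get v = true ↔ v ∈ r.2.2
  nodup : r.2.2.Nodup
  src_mem : ∀ s ∈ src, s ∈ r.2.2
  closed : ∀ e ∈ L, e.1 ∈ r.2.2 → e.2 ∈ r.2.2
  ind : ∀ S : ℕ → Prop, (∀ s ∈ src, S s) → (∀ e ∈ L, e.1 ∈ r.2.2 → S e.1 → S e.2) →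
    ∀ v ∈ r.2.2, S v

theorem foldl_adj (L : List (ℕ × ℕ)) :
    ∃ adj : Arr (List ℕ), L.foldl (fun (a : Arr (List ℕ)) (e : ℕ × ℕ) =>
      a.set e.1 (e.2 :: a.get e.1)) (Arr.const []) = adj ∧ (∀ v w, w ∈ adj.get v ↔ (v, w) ∈ L) ∧
      ∀ U : Finset ℕ, ∑ v ∈ U, (adj.get v).length ≤ L.length := by
  refine ⟨_, rfl, ?_⟩
  induction L using List.reverseRecOn with
  | nil => simp
  | append_singleton l e ih =>
    simp only [List.foldl_append, List.foldl_cons, List.foldl_nil, Arr.get_set, List.mem_append,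
      List.mem_singleton, List.length_append, List.length_singleton]
    generalize l.foldl (fun (a : Arr (List ℕ)) (e : ℕ × ℕ) => a.set e.1 (e.2 :: a.get e.1))
      (Arr.const []) = a at ih ⊢
    refine ⟨fun v w => ?_, fun U => ?_⟩
    · split_ifs with k
      · subst k
        simp [ih.1, Prod.ext_iff, or_comm]
      · simp [ih.1, Prod.ext_iff, k]
    · refine (sum_le_sum (g := fun v => (a.get v).length + if v = e.1 then 1 else 0)
        fun v _ => ?_).trans ?_
      · split_ifs with k <;> simp [k]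
      · rw [sum_add_distrib, sum_ite_eq']
        have := ih.2 U
        split_ifs <;> omega

theorem reachL_tri {c : Cx} (L : List (ℕ × ℕ)) (src : List ℕ) :
    Tri c (reachL L src) fun r t => RL L src r ∧ t ≤ 2 * src.length + 3 * L.length := by
  obtain ⟨adj, h0, h1, h2⟩ := foldl_adj L
  rw [reachL, Tri_bind, Tri_foldP, h0]
  refine (reach_tri (N := adj.get) (T := fun _ => 0) (src.toFinset ∪ (L.map Prod.snd).toFinset)
    (fun s hs => by simp [hs]) (fun v _ w hw => mem_union_right _ (List.mem_toFinset.2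
      (List.mem_map.2 ⟨_, (h1 v w).1 hw, rfl⟩))) (fun v _ => by simp)
    (by have := h2 (src.toFinset ∪ (L.map Prod.snd).toFinset); omega)).mono ?_
  rintro r t ⟨k1, -, k2⟩
  refine ⟨⟨k1.vis, k1.forest.nodup, k1.src_mem, fun e he k => k1.closed _ k _ ((h1 _ _).2 he),
    fun S a1 a2 v hv => ?_⟩, ?_⟩
  · obtain ⟨s, hs, p⟩ := (k1.mem_iff v).1 hv
    clear hv
    induction p with
    | refl => exact a1 s hs
    | tail p k ih => exact a2 _ ((h1 _ _).1 k) ((k1.mem_iff _).2 ⟨s, hs, p⟩) ih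
  · rw [← List.sum_toFinset _ k1.forest.nodup] at k2
    simp only [zero_add, ← mul_sum] at k2
    have := h2 r.2.2.toFinset
    omega

variable {E l : List Tr}

theorem foldl_mate (h : IsM E l) : ∃ m : Arr ℕ, l.foldl (fun (a : Arr ℕ) (e : Tr) =>
    a.set e.2.2 e.1) (Arr.const 0) = m ∧ ∀ e ∈ l, m.get e.2.2 = e.1 := by
  refine ⟨_, rfl, ?_⟩
  induction l using List.reverseRecOn with
  | nil => simp
  | append_singleton l x ih =>
    intro e he
    simp only [List.foldl_append, List.foldl_cons, List.foldl_nil, Arr.get_set]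
    split_ifs with k
    · rw [h.inj2 he (by simp) k]
    · refine ih (h.sub (List.sublist_append_left _ _)) e
        ((List.mem_append.1 he).resolve_right fun c => k ?_)
      rw [List.mem_singleton.1 c]

/-- The partners of the matched inner vertices. -/
theorem IsM.mate (h : IsM E l) {m : ℕ → ℕ} (hm : ∀ e ∈ l, m e.2.2 = e.1) :
    Set.InjOn m (inns l) ∧ ∀ y ∈ inns l, m y ∈ nodes l ∧ ∃ e ∈ E, e.2.2 = y ∧ e.1 = m y := by
  refine ⟨fun y hy z hz k => ?_, fun y hy => ?_⟩
  · obtain ⟨e, he, rfl⟩ := mem_inns.1 hy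
    obtain ⟨e', he', rfl⟩ := mem_inns.1 hz
    rw [hm e he, hm e' he'] at k
    rw [h.inj1 he he' k]
  · obtain ⟨e, he, rfl⟩ := mem_inns.1 hy
    exact ⟨mem_nodes.2 ⟨e, he, (hm e he).symm⟩, e, h.1 e he, rfl, (hm e he).symm⟩

/-- The nodes that are reached from the exposed nodes along alternating paths. -/
theorem alive (h : MaxM E l) {m : ℕ → ℕ} (hm : ∀ e ∈ l, m e.2.2 = e.1) {R : ℕ → Prop}
    [DecidablePred R] (ind : ∀ S : ℕ → Prop, (∀ s ∉ nodes l, S s) →
      (∀ e ∈ E, e.2.2 ∈ inns l → R e.1 → S e.1 → S (m e.2.2)) → ∀ v, R v → S v) :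
    (∀ e ∈ E, R e.1 → e.2.2 ∈ inns l) ∧ ∀ Y ⊆ inns l, (∀ y ∈ Y, R (m y)) → Y.Nonempty →
      Y.card + 1 ≤ (Nb (E.filter fun e => R e.1) Y).card := by
  obtain ⟨inj, mt⟩ := h.1.mate hm
  have esc : ∀ Z ⊆ inns l, (∀ e ∈ E, e.2.2 ∈ Z → R e.1 → e.1 ∈ Z.image m) →
      ∀ v, R v → v ∉ Z.image m := fun Z hZ k => ind _ (fun s hs c => by
      obtain ⟨z, hz, rfl⟩ := mem_image.1 c
      exact hs (mt z (hZ hz)).1) fun e he h1 h2 h3 c => by
      obtain ⟨z, hz, c⟩ := mem_image.1 c
      exact h3 (k e he (inj (hZ hz) h1 c ▸ hz) h2)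
  refine ⟨fun e he hr => by_contra fun c => ?_, fun Y hY hr ⟨y, hy⟩ => by_contra fun c => ?_⟩
  · have := hall_inn h (Y := insert e.2.2 (inns l)) (d := 0) fun Y hY => by
      have z1 : Y.erase e.2.2 ⊆ inns l := fun y hy =>
        (mem_insert.1 (hY (mem_erase.1 hy).2)).resolve_left (mem_erase.1 hy).1
      have z2 : (Y.erase e.2.2).image m ⊆ Nb E Y := fun q hq => by
        obtain ⟨z, hz, rfl⟩ := mem_image.1 hq
        obtain ⟨-, x, h1, h2, h3⟩ := mt z (z1 hz)
        exact mem_Nb.2 ⟨x, h1, h2 ▸ (mem_erase.1 hz).2, h3⟩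
      have z3 := card_image_of_injOn (inj.mono z1)
      have z4 := card_le_card z2
      by_cases k : e.2.2 ∈ Y
      · rw [card_erase_of_mem k] at z3
        by_contra c'
        have z5 := eq_of_subset_of_card_le z2 (by omega)
        exact esc _ z1 (fun x hx a _ => z5 ▸ mem_Nb.2 ⟨x, hx, (mem_erase.1 a).2, rfl⟩) _ hr
          (z5 ▸ mem_Nb.2 ⟨e, he, k, rfl⟩)
      · rw [erase_eq_of_notMem k] at z3 z4
        omega
    rw [card_insert_of_notMem c, h.1.card_inns] at this
    omega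
  · have z2 : Y.image m ⊆ Nb (E.filter fun e => R e.1) Y := fun q hq => by
      obtain ⟨z, hz, rfl⟩ := mem_image.1 hq
      obtain ⟨-, x, h1, h2, h3⟩ := mt z (hY hz)
      exact mem_Nb.2 ⟨x, List.mem_filter.2 ⟨h1, by simpa [h3] using hr z hz⟩, h2 ▸ hz, h3⟩
    have z3 := card_image_of_injOn (inj.mono hY)
    have z5 := eq_of_subset_of_card_le z2 (by omega)
    exact esc _ hY (fun x hx a b => z5 ▸ mem_Nb.2 ⟨x, List.mem_filter.2 ⟨hx, by simpa using b⟩,
      a, rfl⟩) _ (hr y hy) (mem_image_of_mem _ hy)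

variable {bm : ℕ → List Tr → M (List Tr)} {c : ℕ} {g : ℕ → ℕ} {d B b : ℕ}

/-- **The dead part.** -/
theorem dead_vt (h : BmOK bm c g) (hB : 2 ^ (c * (b + 1)) ≤ B) (hd : d ≤ b) {P Y : List ℕ}
    (hP : P.Nodup) (hY : Y.Nodup) (ha : ∀ e ∈ E, e.1 ∈ P ∧ e.2.2 ∈ Y) (hE : E.length ≤ 4 * 2 ^ b) :
    Vt d B (dead bm b P Y E) fun r t => DeadRes P Y E r.1 r.2 ∧
      t ≤ (P.length + Y.length + E.length + 1) * bG g b := by
  unfold dead mateP
  refine (h.spec d B b E hE hB hd).bind ?_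
  rintro l t ⟨hl, ht⟩
  obtain ⟨m, m0, m1⟩ := foldl_mate hl.1
  obtain ⟨cv, c0, c1, c2⟩ := foldl_cov l
  refine Vt.of_tri (cn := true) ?_
  simp only [Tri_bind, Tri_foldP, Tri_filterP, Tri_mapP, Tri_pure, m0, c0]
  refine (reachL_tri _ _).mono ?_
  rintro r t' ⟨hr, ht'⟩
  obtain ⟨inj, mt⟩ := hl.1.mate m1
  obtain ⟨a1, a2⟩ := alive hl m1 (R := fun v => r.1.get v = true) fun S k1 k2 v hv =>
    hr.ind S (fun s hs => k1 s (by simpa [← c1] using (List.mem_filter.1 hs).2)) (fun e he k => by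
      obtain ⟨x, hx, rfl⟩ := List.mem_map.1 he
      exact k2 x (List.mem_filter.1 hx).1 ((c2 _).1 (List.mem_filter.1 hx).2) ((hr.vis _).2 k))
      v ((hr.vis v).1 hv)
  have a3 : ∀ e ∈ E, r.1.get e.1 = true → (cv.2.get e.2.2 && r.1.get (m.get e.2.2)) = true :=
    fun e he k => by
      have k' := (c2 _).2 (a1 e he k)
      rw [k', Bool.true_and, hr.vis]
      exact hr.closed _ (List.mem_map_of_mem (List.mem_filter.2 ⟨he, k'⟩)) ((hr.vis _).1 k)
  have sp : ∀ Y' ⊆ (Y.filter fun y => cv.2.get y && r.1.get (m.get y)).toFinset, Y'.Nonempty →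
      Y'.card + 1 ≤ (Nb (E.filter fun e => r.1.get e.1) Y').card := fun Y' k hn => by
    have k' : ∀ y ∈ Y', cv.2.get y = true ∧ r.1.get (m.get y) = true := fun y hy => by
      simpa using (List.mem_filter.1 (List.mem_toFinset.1 (k hy))).2
    simpa using a2 Y' (fun y hy => (c2 y).1 (k' y hy).1) (fun y hy => (k' y hy).2) hn
  refine ⟨⟨⟨List.filter_sublist, List.filter_sublist⟩, ⟨List.filter_sublist, List.filter_sublist⟩,
    ⟨List.filter_sublist, List.filter_sublist⟩, fun p hp => by simp [hp], fun y hy => ?_, ?_, ?_,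
    fun e => ?_, fun e => ?_, fun e he => ?_, fun e he => ?_,
    ⟨l.filter fun e => !r.1.get e.1, ?_, ?_⟩, sp, ?_⟩, ?_⟩
  · simp only [List.mem_filter, hy, true_and, Bool.not_eq_true', Bool.not_eq_false]
  · rw [add_comm]
    exact (List.length_eq_length_filter_add _).symm
  · rw [add_comm]
    exact (List.length_eq_length_filter_add _).symm
  · simp only [List.mem_filter]
    exact and_congr_right fun he => by simp only [(ha e he).2, true_and]
  · simp only [List.mem_filter]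
    exact and_congr_right fun he => by simp only [(ha e he).1, true_and]
  · obtain ⟨k1, k2⟩ := List.mem_filter.1 he
    refine List.mem_filter.2 ⟨(ha e k1).1, ?_⟩
    cases k : r.1.get e.1
    · rfl
    · simp [a3 e k1 k] at k2
  · obtain ⟨k1, k2⟩ := List.mem_filter.1 he
    exact List.mem_filter.2 ⟨(ha e k1).2, a3 e k1 k2⟩
  · refine (hl.1.sub List.filter_sublist).mono fun e he => ?_
    obtain ⟨k1, k2⟩ := List.mem_filter.1 he
    refine List.mem_filter.2 ⟨hl.1.1 e k1, ?_⟩
    rw [m1 e k1]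
    simp only [Bool.not_eq_true'] at k2
    simp [k2]
  · rw [← (hl.1.sub List.filter_sublist).card_nodes, ← List.toFinset_card_of_nodup (hP.filter _)]
    refine congrArg _ (Finset.ext fun p => ?_)
    simp only [mem_nodes, List.mem_toFinset, List.mem_filter]
    refine ⟨?_, fun k => ?_⟩
    · rintro ⟨e, k, rfl⟩
      exact ⟨(ha e (hl.1.1 e k.1)).1, k.2⟩
    · have : p ∈ nodes l := by_contra fun c' => by
        have := (hr.vis p).2 (hr.src_mem p (List.mem_filter.2 ⟨k.1, by simpa [← c1] using c'⟩))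
        simp [this] at k
      obtain ⟨e, he, rfl⟩ := mem_nodes.1 this
      exact ⟨e, ⟨he, k.2⟩, rfl⟩
  · dsimp only
    have nb : Nb (E.filter fun e => r.1.get e.1)
        (Y.filter fun y => cv.2.get y && r.1.get (m.get y)).toFinset ⊆
        (P.filter fun p => r.1.get p).toFinset := fun q hq => by
      obtain ⟨e, he, -, rfl⟩ := mem_Nb.1 hq
      exact List.mem_toFinset.2 (List.mem_filter.2 ⟨(ha e (List.mem_filter.1 he).1).1,
        (List.mem_filter.1 he).2⟩)
    have := card_le_card nb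
    rw [List.toFinset_card_of_nodup (hP.filter _)] at this
    by_cases k : (Y.filter fun y => cv.2.get y && r.1.get (m.get y)) = []
    · rw [k]
      rcases P.filter fun p => r.1.get p with _ | ⟨x, xs⟩ <;> simp
    · have k' := sp _ Subset.rfl ((List.toFinset_nonempty_iff _).2 k)
      rw [List.toFinset_card_of_nodup (hY.filter _)] at k'
      exact .inr (by omega)
  · have := hl.1.length_le
    have := List.length_filter_le (fun p => !cv.1.get p) P
    have := List.length_filter_le (fun e : Tr => cv.2.get e.2.2) E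
    simp only [List.length_map] at ht'
    unfold bG
    nlinarith [Nat.zero_le (P.length * g b), Nat.zero_le (E.length * g b),
      Nat.zero_le (Y.length * g b)]

end Vale.Agent.P305BL
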