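import Vale.Agent.P305BL.Expand

/-!
# Blossoms: nodes are dissolved
-/

namespace Vale.Agent.P305BL

open Vale.Agent.P305 Vale.Agent.P305E Vale.Agent.P305C Finset

variable {n : ℕ} {A : ℕ → ℕ → Prop}

/-- The overhead of the programs of this block. -/
def bG (g : ℕ → ℕ) (b : ℕ) : ℕ := 40 * (g b + 1)

theorem bG_mono {g : ℕ → ℕ} (h : Monotone g) : Monotone (bG g) := fun x y hxy => by
  have := h hxy
  unfold bG
  omega

theorem bG_sub {bm : ℕ → List Tr → M (List Tr)} {c : ℕ} {g : ℕ → ℕ} (h : BmOK bm c g) (a : ℕ) :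
    Sub fun N => bG g (a * Nat.size N + a) := (Sub.const 40).mul ((h.sub a).add (Sub.const 1))

theorem mem_fl {out : List (ℕ × ℕ)} {v : ℕ} : v ∈ fl out ↔ ∃ e ∈ out, v = e.1 ∨ v = e.2 := by
  induction out with
  | nil => simp
  | cons e out ih => simp [fl_cons, ih, or_assoc]

theorem foldl_write (out : List (ℕ × ℕ)) (mt : Arr ℕ) (h : (fl out).Nodup) :
    ∃ m : Arr ℕ, out.foldl (fun (a : Arr ℕ) (e : ℕ × ℕ) => (a.set e.1 e.2).set e.2 e.1) mt = m ∧
      (∀ v ∉ fl out, m.get v = mt.get v) ∧ ∀ e ∈ out, m.get e.1 = e.2 ∧ m.get e.2 = e.1 ∧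
        e.1 ≠ e.2 := by
  induction out generalizing mt with
  | nil => exact ⟨mt, rfl, fun _ _ => rfl, by simp⟩
  | cons e out ih =>
    simp only [fl_cons, Multiset.singleton_add, Multiset.cons_add, Multiset.nodup_cons,
      Multiset.mem_cons, not_or] at h ⊢
    obtain ⟨m, h0, h1, h2⟩ := ih ((mt.set e.1 e.2).set e.2 e.1) h.2.2
    refine ⟨m, h0, fun v hv => ?_, fun x hx => ?_⟩
    · rw [h1 v hv.2.2, Arr.get_set_ne _ hv.2.1, Arr.get_set_ne _ hv.1]
    · rcases List.mem_cons.1 hx with rfl | hx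
      · rw [h1 _ h.1.2, h1 _ h.2.1, Arr.get_set_ne _ h.1.1]
        simp [h.1.1]
      · exact h2 x hx

theorem write_tri {c : Cx} (hG : Gr n A) {out : List (ℕ × ℕ)} (mt : Arr ℕ) {R : Finset ℕ}
    (ho : ∀ e ∈ out, A e.1 e.2) (hR : fl out = R.val) :
    Tri c (writeP out mt) fun m t => PMon A R m.get ∧ (∀ v ∉ R, m.get v = mt.get v) ∧
      2 * t = R.card := by
  obtain ⟨m, h0, h1, h2⟩ := foldl_write out mt (hR ▸ R.nodup)
  have k : ∀ v, v ∈ R ↔ v ∈ fl out := fun v => by rw [hR, mem_val]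
  rw [writeP, Tri_foldP, h0]
  refine ⟨fun v hv => ?_, fun v hv => h1 v fun c => hv ((k v).2 c), by
    rw [card_def, ← hR, card_fl]⟩
  obtain ⟨e, he, a⟩ := mem_fl.1 ((k v).1 hv)
  obtain ⟨a1, a2, a3⟩ := h2 e he
  rcases a with rfl | rfl
  · rw [a1, a2]
    exact ⟨(k _).2 (mem_fl.2 ⟨e, he, .inr rfl⟩), rfl, a3.symm, ho e he⟩
  · rw [a2, a1]
    exact ⟨(k _).2 (mem_fl.2 ⟨e, he, .inl rfl⟩), rfl, a3, hG.symm (ho e he)⟩

variable {bm : ℕ → List Tr → M (List Tr)} {c : ℕ} {g : ℕ → ℕ} {d B b : ℕ} {s : St}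

/-- **Two nodes are matched by a bridge.** -/
theorem commit_vt (h : BmOK bm c g) (hG : Gr n A) (hn : n ≤ 2 ^ b) (hB : 2 ^ (c * (b + 1)) ≤ B)
    (hd : d ≤ b) {o u o' u' : ℕ} (ho : s.Node n A o) (ho' : s.Node n A o')
    (dj : Disjoint (s.V n o) (s.V n o')) (hu : u ∈ s.V n o) (hu' : u' ∈ s.V n o') (hA : A u u')
    (mt : Arr ℕ) :
    Vt d B (commit bm n b s o u o' u' mt) fun m t => PMon A (s.V n o ∪ s.V n o') m.get ∧
      (∀ v ∉ s.V n o ∪ s.V n o', m.get v = mt.get v) ∧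
      t ≤ ((s.V n o ∪ s.V n o').card + 1) * bG g b := by
  have e : fl [(u, u')] + rg (s.V n) [(o, u), (o', u')] = (s.V n o ∪ s.V n o').val := by
    rw [← disjUnion_eq_union _ _ dj, disjUnion_val, fl_cons, rg_cons, rg_cons,
      s.V_leaf (ho.lt _ hu), s.V_leaf (ho'.lt _ hu'), ← sdiff_val_add (singleton_subset_iff.2 hu),
      ← sdiff_val_add (singleton_subset_iff.2 hu')]
    simp only [singleton_val, fl_nil, rg_nil]
    abel
  refine (xpairs_vt (A := A) h hn hB hd (by simp [ho, ho', hu, hu']) (by simpa using hA)).bind ?_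
  rintro out t ⟨h1, h2, h3⟩
  refine Vt.of_tri (cn := true) ((write_tri hG mt h1 (h2.trans e)).mono fun m t' k =>
    ⟨k.1, k.2.1, ?_⟩)
  have e' := congrArg Multiset.card e
  rw [Multiset.card_add, ← card_def] at e'
  have := Nat.mul_le_mul_right (2 * g b + 4)
    (show (rg (s.V n) [(o, u), (o', u')]).card ≤ (s.V n o ∪ s.V n o').card by omega)
  have := k.2.2
  simp only [List.length_cons, List.length_nil] at h3
  unfold bG
  nlinarith

theorem foldl_cov (l : List Tr) :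
    ∃ cv : Arr Bool × Arr Bool, l.foldl (fun (a : Arr Bool × Arr Bool) (e : Tr) =>
      (a.1.set e.1 true, a.2.set e.2.2 true)) (Arr.const false, Arr.const false) = cv ∧
      (∀ p, cv.1.get p = true ↔ p ∈ nodes l) ∧ ∀ y, cv.2.get y = true ↔ y ∈ inns l := by
  refine ⟨_, rfl, ?_⟩
  induction l using List.reverseRecOn with
  | nil => simp [nodes, inns]
  | append_singleton l e ih =>
    simp only [nodes, inns, List.foldl_append, List.foldl_cons, List.foldl_nil, Arr.get_set,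
      List.map_append, List.mem_toFinset, List.mem_append, List.map_cons, List.map_nil,
      List.mem_singleton] at ih ⊢
    refine ⟨fun p => ?_, fun p => ?_⟩
    · split_ifs with k
      · simp [k]
      · simp [k, ih.1 p]
    · split_ifs with k
      · simp [k]
      · simp only [k, or_false, ih.2 p]

theorem foldl_rep (V : ℕ → Finset ℕ) (ρ : ℕ → ℕ) (P : List ℕ) (z : List (ℕ × ℕ) × List ℕ)
    (h : ∀ p ∈ P, ρ p ∈ V p ∧ V (ρ p) = {ρ p}) :
    ∃ q, P.foldl (fun (q : List (ℕ × ℕ) × List ℕ) p => ((p, ρ p) :: q.1, ρ p :: q.2)) z = q ∧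
      (∀ j ∈ q.1, j ∈ z.1 ∨ ∃ p ∈ P, j = (p, ρ p)) ∧ q.1.length = z.1.length + P.length ∧
      q.2.length = z.2.length + P.length ∧
      rg V q.1 + (q.2 : Multiset ℕ) = rg V z.1 + z.2 + (P.map fun p => (V p).val).sum := by
  induction P generalizing z with
  | nil => exact ⟨z, rfl, fun _ h => .inl h, rfl, rfl, by simp⟩
  | cons p P ih =>
    obtain ⟨q, h0, h1, h2, h3, h4⟩ := ih ((p, ρ p) :: z.1, ρ p :: z.2) fun x hx => h x (by simp [hx])
    refine ⟨q, h0, fun j hj => ?_, by simp at h2 ⊢; omega, by simp at h3 ⊢; omega, ?_⟩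
    · rcases h1 j hj with k | ⟨x, hx, k⟩
      · exact (List.mem_cons.1 k).symm.imp id fun k => ⟨p, by simp, k⟩
      · exact .inr ⟨x, by simp [hx], k⟩
    · have k := h p (by simp)
      rw [h4, rg_cons, List.map_cons, List.sum_cons, ← Multiset.cons_coe,
        ← Multiset.singleton_add, ← sdiff_val_add (singleton_subset_iff.2 k.1), k.2, singleton_val]
      abel

theorem foldl_fix (X : List ℕ) (a : Arr ℕ) (v : ℕ) :
    (X.foldl (fun (a : Arr ℕ) x => a.set x x) a).get v = if v ∈ X then v else a.get v := by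
  induction X using List.reverseRecOn with
  | nil => simp
  | append_singleton l x ih =>
    simp only [List.foldl_append, List.foldl_cons, List.foldl_nil, Arr.get_set, ih,
      List.mem_append, List.mem_singleton]
    by_cases h : v = x <;> simp [h]

theorem filter_not_toFinset {P : List ℕ} {f : ℕ → Bool} {S : Finset ℕ}
    (h : ∀ p, f p = true ↔ p ∈ S) : (P.filter fun p => !f p).toFinset = P.toFinset \ S := by
  ext p
  simp [← h]

/-- **Nodes and inner vertices are matched and expanded.** -/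
theorem dissolve_vt (h : BmOK bm c g) (hG : Gr n A) (hn : n ≤ 2 ^ b) (hB : 2 ^ (c * (b + 1)) ≤ B)
    (hd : d ≤ b) {P Y : List ℕ} {E : List Tr} (hP : P.Nodup) (hY : Y.Nodup)
    (hN : ∀ p ∈ P, s.Node n A p) (pt : Part n A (s.V n) P.toFinset Y.toFinset E)
    (hE : E.length ≤ 4 * 2 ^ b) (mt : Arr ℕ) :
    Vt d B (dissolve bm n b s P Y E mt) fun r t => r.2.Nodup ∧
      (∀ x ∈ r.2, x ∈ P.toFinset.biUnion (s.V n) ∪ Y.toFinset ∧ r.1.get x = x) ∧
      PMon A ((P.toFinset.biUnion (s.V n) ∪ Y.toFinset) \ r.2.toFinset) r.1.get ∧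
      (∀ v ∉ P.toFinset.biUnion (s.V n) ∪ Y.toFinset, r.1.get v = mt.get v) ∧
      (∃ l, MaxM E l ∧ r.2.length + 2 * l.length = P.length + Y.length) ∧
      t ≤ ((P.toFinset.biUnion (s.V n) ∪ Y.toFinset).card + E.length + 1) * bG g b := by
  have eW := pt.card
  have cW : P.length + Y.length ≤ (P.toFinset.biUnion (s.V n) ∪ Y.toFinset).card := by
    rw [card_def, eW, Multiset.card_add, Multiset.card_sum, ← card_def,
      List.toFinset_card_of_nodup hY, ← List.toFinset_card_of_nodup hP, card_eq_sum_ones]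
    exact Nat.add_le_add_right (sum_le_sum fun p hp =>
      card_pos.2 (hN p (List.mem_toFinset.1 hp)).nonempty) _
  generalize P.toFinset.biUnion (s.V n) ∪ Y.toFinset = W at eW cW ⊢
  unfold dissolve
  refine (h.spec d B b E hE hB hd).bind ?_
  rintro l t ⟨hl, ht⟩
  obtain ⟨cv, c0, c1, c2⟩ := foldl_cov l
  have s1 : nodes l ⊆ P.toFinset := fun q hq => by
    obtain ⟨e, he, rfl⟩ := mem_nodes.1 hq
    exact (pt.arc e (hl.1.1 e he)).1
  have s2 : inns l ⊆ Y.toFinset := fun q hq => by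
    obtain ⟨e, he, rfl⟩ := mem_inns.1 hq
    exact (pt.arc e (hl.1.1 e he)).2.2.1
  refine Vt.tbind' ((Tri_foldP _ _ _ _).2 ?_)
  rw [c0]
  refine Vt.tbind' ((Tri_filterP _ _ _).2 (Vt.tbind' ((Tri_filterP _ _ _).2 ?_)))
  have p1 := filter_not_toFinset (P := P) c1
  have p2 := hP.filter fun p => !cv.1.get p
  have p3 : ∀ p ∈ P.filter fun p => !cv.1.get p, p ∈ P := fun p hp => (List.mem_filter.1 hp).1
  have y1 := filter_not_toFinset (P := Y) c2
  have y2 := hY.filter fun p => !cv.2.get p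
  generalize (P.filter fun p => !cv.1.get p) = P' at p1 p2 p3 ⊢
  generalize (Y.filter fun p => !cv.2.get p) = Y' at y1 y2 ⊢
  have p4 : P'.length + l.length = P.length := by
    rw [← List.toFinset_card_of_nodup p2, ← List.toFinset_card_of_nodup hP, p1, ← hl.1.card_nodes,
      card_sdiff_add_card_eq_card s1]
  have y4 : Y'.length + l.length = Y.length := by
    rw [← List.toFinset_card_of_nodup y2, ← List.toFinset_card_of_nodup hY, y1, ← hl.1.card_inns,
      card_sdiff_add_card_eq_card s2]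
  obtain ⟨jx, j0, j1, j2, j3, j4⟩ := foldl_rep (s.V n) (s.rep n) P' ([], Y') fun p hp =>
    ⟨(hN p (p3 p hp)).rep_mem, s.V_leaf ((hN p (p3 p hp)).lt _ (hN p (p3 p hp)).rep_mem)⟩
  have arc : ∀ e ∈ l, s.Node n A e.1 ∧ e.2.1 ∈ s.V n e.1 ∧ A e.2.1 e.2.2 := fun e he =>
    have k := pt.arc e (hl.1.1 e he)
    ⟨hN _ (List.mem_toFinset.1 k.1), k.2.1, k.2.2.2⟩
  obtain ⟨jo, k0, k1, k2, k3, k4, k5⟩ := foldl_jobs (s.V n) l (jx.1, []) fun e he =>
    ⟨(arc e he).2.1, s.V_leaf ((arc e he).1.lt _ (arc e he).2.1)⟩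
  refine Vt.tbind' ((Tri_foldP _ _ _ _).2 ?_)
  rw [j0]
  refine Vt.tbind' ((Tri_foldP _ _ _ _).2 ?_)
  rw [k0]
  refine (xpairs_vt (A := A) h hn hB hd (fun j hj => ?_) fun j hj => ?_).bind ?_
  · rcases k1 j hj with a | ⟨e, he, rfl⟩
    · obtain ⟨p, hp, rfl⟩ := (j1 j a).resolve_left (by simp)
      exact ⟨hN p (p3 p hp), (hN p (p3 p hp)).rep_mem⟩
    · exact ⟨(arc e he).1, (arc e he).2.1⟩
  · obtain ⟨e, he, rfl⟩ := (k2 j hj).resolve_left (by simp)
    exact (arc e he).2.2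
  rintro out t' ⟨o1, o2, o3⟩
  have e : fl out + (jx.2 : Multiset ℕ) = W.val := by
    have a : (Y' : Multiset ℕ) = (Y.toFinset \ inns l).val := by
      rw [← y1, List.toFinset_val, y2.dedup]
    rw [← List.sum_toFinset _ p2, p1, a] at j4
    rw [o2, k5, hl.1.sum_val, eW, ← sum_sdiff s1, ← sdiff_val_add s2, add_right_comm,
      add_assoc (fl _), j4]
    simp only [fl_nil, rg_nil]
    abel
  have nd : jx.2.Nodup := Multiset.coe_nodup.1 (Multiset.nodup_add.1 (e ▸ W.nodup)).2.1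
  have xs : jx.2.toFinset ⊆ W := fun x hx => by
    rw [← mem_val, ← e]
    exact Multiset.mem_add.2 (.inr (by simpa using hx))
  have e' : fl out = (W \ jx.2.toFinset).val := by
    refine add_right_cancel (b := (jx.2 : Multiset ℕ)) ?_
    rw [e, ← sdiff_val_add xs, List.toFinset_val, nd.dedup]
  refine Vt.tbind (write_tri (c := ⟨B, true⟩) hG mt o1 e') ?_
  rintro m t'' ⟨m1, m2, m3⟩
  refine Vt.of_tri (cn := true) ?_
  simp only [Tri_bind, Tri_foldP, Tri_pure, foldl_fix]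
  have ne : ∀ v ∈ W \ jx.2.toFinset, v ∉ jx.2 := fun v hv k =>
    (mem_sdiff.1 hv).2 (List.mem_toFinset.2 k)
  simp only [List.length_nil] at j2 j3 k3 k4
  refine ⟨nd, fun x hx => ⟨xs (List.mem_toFinset.2 hx), if_pos hx⟩, fun v hv => ?_,
    fun v hv => ?_, ⟨l, hl, by omega⟩, ?_⟩
  · obtain ⟨a1, a2, a3, a4⟩ := m1 v hv
    simp only [foldl_fix, if_neg (ne v hv), if_neg (ne _ a1)]
    exact ⟨a1, a2, a3, a4⟩
  · rw [if_neg fun k => hv (xs (List.mem_toFinset.2 k)), m2 v fun k => hv (mem_sdiff.1 k).1]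
  · have a1 := congrArg Multiset.card o2
    have a2 := congrArg Multiset.card e
    rw [Multiset.card_add] at a1 a2
    rw [← card_def] at a2
    have a3 := Nat.mul_le_mul_right (2 * g b + 4) (show (rg (s.V n) jo.1).card ≤ W.card by omega)
    have a4 := card_le_card (sdiff_subset (s := W) (t := jx.2.toFinset))
    unfold bG
    nlinarith [Nat.zero_le (W.card * g b), Nat.zero_le (E.length * g b)]

end Vale.Agent.P305BL
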