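import Vale.Agent.P305BL.Store

/-!
# Blossoms: the expansion
-/

namespace Vale.Agent.P305BL

open Vale.Agent.P305 Vale.Agent.P305E Vale.Agent.P305C Finset

variable {n : ℕ} {A : ℕ → ℕ → Prop} {par : ℕ → ℕ × Bool} {rc : ℕ → Rc}

/-- The elements below the node `top`. -/
inductive Ch (n : ℕ) (A : ℕ → ℕ → Prop) (par : ℕ → ℕ × Bool) (rc : ℕ → Rc) (top : ℕ) : ℕ → Prop
  | refl (h : Nd n A par rc top) : Ch n A par rc top top
  | step (p x : ℕ) (h : Ch n A par rc top p) (hp : n ≤ p)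
      (hx : x ∈ nodes (rc p).1 ∨ x ∈ inns (rc p).1) : Ch n A par rc top x

theorem Ch.nd {top x : ℕ} (h : Ch n A par rc top x) :
    Nd n A par rc x ∧ Vx n rc x ⊆ Vx n rc top ∧ Nd n A par rc top := by
  induction h with
  | refl h => exact ⟨h, Subset.rfl, h⟩
  | step p x _ hp hx ih => exact ⟨(ih.1.sub hp hx).1, (ih.1.sub hp hx).2.1.trans ih.2.1, ih.2.2⟩

theorem Ch.trans {a p x : ℕ} (h : Ch n A par rc a p) (h' : Ch n A par rc p x) :
    Ch n A par rc a x := by
  induction h' with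
  | refl _ => exact h
  | step q x _ hp hx ih => exact .step q x ih hp hx

theorem Nd.ch {p : ℕ} (h : Nd n A par rc p) : ∀ z ∈ Vx n rc p, Ch n A par rc p z := by
  induction h with
  | leaf v h =>
    intro z hz
    rw [Vx_leaf rc h, mem_singleton] at hz
    exact hz ▸ .refl (hz ▸ .leaf v h)
  | node p h lv pk py kids ih =>
    intro z hz
    have hp := Nd.node p h lv pk py kids
    rw [Vx_node h fun q hq => (pk q hq).1] at hz
    rcases mem_union.1 hz with k | k
    · obtain ⟨q, hq, k⟩ := mem_biUnion.1 k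
      exact (Ch.step p q (.refl hp) h (.inl hq)).trans (ih q hq z k)
    · exact .step p z (.refl hp) h (.inr k)

/-- The ends of a list of pairs. -/
def fl (out : List (ℕ × ℕ)) : Multiset ℕ := (out.map fun e => ({e.1} : Multiset ℕ) + {e.2}).sum

/-- The vertices that remain to be matched. -/
def rg (V : ℕ → Finset ℕ) (jobs : List (ℕ × ℕ)) : Multiset ℕ :=
  (jobs.map fun j => (V j.1 \ V j.2).val).sum

@[simp] theorem fl_nil : fl [] = 0 := rfl
@[simp] theorem rg_nil (V : ℕ → Finset ℕ) : rg V [] = 0 := rfl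
theorem fl_cons (e : ℕ × ℕ) (out : List (ℕ × ℕ)) : fl (e :: out) = {e.1} + {e.2} + fl out := rfl
theorem rg_cons (V : ℕ → Finset ℕ) (j : ℕ × ℕ) (jobs : List (ℕ × ℕ)) :
    rg V (j :: jobs) = (V j.1 \ V j.2).val + rg V jobs := rfl

theorem card_fl (out : List (ℕ × ℕ)) : (fl out).card = 2 * out.length := by
  induction out with
  | nil => rfl
  | cons e out ih => simp [fl_cons, ih]; omega

theorem sdiff_val_add {s t : Finset ℕ} (h : t ⊆ s) : (s \ t).val + t.val = s.val := by
  rw [sdiff_val, tsub_add_cancel_of_le (val_le_iff.2 h)]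

/-- The arcs of a matching become jobs and pairs. -/
theorem foldl_jobs (V : ℕ → Finset ℕ) (l : List Tr) (p : List (ℕ × ℕ) × List (ℕ × ℕ))
    (h : ∀ e ∈ l, e.2.1 ∈ V e.1 ∧ V e.2.1 = {e.2.1}) :
    ∃ q, l.foldl (fun (q : List (ℕ × ℕ) × List (ℕ × ℕ)) (e : Tr) =>
      ((e.1, e.2.1) :: q.1, e.2 :: q.2)) p = q ∧
      (∀ j ∈ q.1, j ∈ p.1 ∨ ∃ e ∈ l, j = (e.1, e.2.1)) ∧ (∀ j ∈ q.2, j ∈ p.2 ∨ ∃ e ∈ l, j = e.2) ∧
      q.1.length = p.1.length + l.length ∧ q.2.length = p.2.length + l.length ∧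
      fl q.2 + rg V q.1 = fl p.2 + rg V p.1 + ((l.map fun e => (V e.1).val).sum +
        ((l.map fun e => e.2.2 : List ℕ) : Multiset ℕ)) := by
  induction l generalizing p with
  | nil => exact ⟨p, rfl, fun _ h => .inl h, fun _ h => .inl h, rfl, rfl, by simp⟩
  | cons e l ih =>
    obtain ⟨q, h0, h1, h2, h3, h4, h5⟩ := ih ((e.1, e.2.1) :: p.1, e.2 :: p.2)
      fun x hx => h x (by simp [hx])
    refine ⟨q, h0, fun j hj => ?_, fun j hj => ?_, by simp at h3 ⊢; omega, by simp at h4 ⊢; omega,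
      ?_⟩
    · rcases h1 j hj with k | ⟨x, hx, k⟩
      · exact (List.mem_cons.1 k).symm.imp id fun k => ⟨e, by simp, k⟩
      · exact .inr ⟨x, by simp [hx], k⟩
    · rcases h2 j hj with k | ⟨x, hx, k⟩
      · exact (List.mem_cons.1 k).symm.imp id fun k => ⟨e, by simp, k⟩
      · exact .inr ⟨x, by simp [hx], k⟩
    · have k := h e (by simp)
      have := sdiff_val_add (singleton_subset_iff.2 k.1)
      rw [h5, fl_cons, rg_cons, List.map_cons, List.sum_cons, List.map_cons, ← Multiset.cons_coe,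
        ← Multiset.singleton_add, ← this, k.2, singleton_val]
      abel

theorem IsM.sum_val {E l : List Tr} (h : IsM E l) (V : ℕ → Finset ℕ) :
    (l.map fun e => (V e.1).val).sum + ((l.map fun e => e.2.2 : List ℕ) : Multiset ℕ) =
      ∑ q ∈ nodes l, (V q).val + (inns l).val := by
  rw [nodes, List.sum_toFinset _ h.2.1, List.map_map, inns, List.toFinset_val, h.2.2.dedup]
  rfl

theorem Blo.child {E l : List Tr} {o o' x : ℕ} (h : Blo E o o') (hx : x ∈ nodes E)
    (hl : MaxM (E.filter fun e => decide (e.1 ≠ x)) l) :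
    nodes l = (nodes E).erase x ∧ inns l = inns E := by
  have m : ∀ e, e ∈ (E.filter fun e => decide (e.1 ≠ x)) ↔ e ∈ E ∧ e.1 ≠ x := by simp
  have := hall_inn hl (Y := inns E) (d := 0) fun Y hY => by
    rcases Y.eq_empty_or_nonempty with rfl | hn
    · simp
    have := (h.surplus Y hY hn).trans ((card_le_card (t := insert x
      (Nb (E.filter fun e => decide (e.1 ≠ x)) Y)) fun q hq => by
        obtain ⟨e, h1, h2, rfl⟩ := mem_Nb.1 hq
        exact mem_insert.2 ((eq_or_ne e.1 x).imp id fun c =>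
          mem_Nb.2 ⟨e, (m e).2 ⟨h1, c⟩, h2, rfl⟩)).trans (card_insert_le _ _))
    omega
  refine ⟨hl.1.nodes_eq (fun e he => mem_erase.2 ⟨((m e).1 he).2,
    mem_nodes.2 ⟨e, ((m e).1 he).1, rfl⟩⟩) ?_, hl.1.inns_eq (fun e he =>
      mem_inns.2 ⟨e, ((m e).1 he).1, rfl⟩) this⟩
  rw [card_erase_of_mem hx, h.card]
  omega

theorem Blo.inner {E l : List Tr} {o o' x : ℕ} (h : Blo E o o') (hx : x ∈ inns E)
    (hl : MaxM (E.filter fun e => decide (e.2.2 ≠ x) && decide (e.1 ≠ o) && decide (e.1 ≠ o')) l) :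
    nodes l = ((nodes E).erase o).erase o' ∧ inns l = (inns E).erase x := by
  have m : ∀ e, e ∈ (E.filter fun e => decide (e.2.2 ≠ x) && decide (e.1 ≠ o) &&
      decide (e.1 ≠ o')) ↔ e ∈ E ∧ (e.2.2 ≠ x ∧ e.1 ≠ o) ∧ e.1 ≠ o' := by simp
  generalize (E.filter fun e => decide (e.2.2 ≠ x) && decide (e.1 ≠ o) && decide (e.1 ≠ o')) = E'
    at m hl
  have := hall_inn hl (Y := (inns E).erase x) (d := 0) fun Y hY => by
    have := (h.minimal Y (hY.trans_ssubset (erase_ssubset hx))).trans ((card_le_card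
      (t := Nb E' Y ∪ {o, o'}) fun q hq => by
        by_cases c : q ∈ ({o, o'} : Finset ℕ)
        · exact mem_union_right _ c
        · obtain ⟨e, h1, h2, rfl⟩ := mem_Nb.1 ((mem_union.1 hq).resolve_right c)
          simp only [mem_insert, mem_singleton, not_or] at c
          exact mem_union_left _ (mem_Nb.2 ⟨e, (m e).2 ⟨h1, ⟨(mem_erase.1 (hY h2)).1, c.1⟩, c.2⟩,
            h2, rfl⟩)).trans (card_union_le _ _))
    have := card_le_two (a := o) (b := o')
    omega
  refine ⟨hl.1.nodes_eq (fun e he => mem_erase.2 ⟨((m e).1 he).2.2, mem_erase.2 ⟨((m e).1 he).2.1.2,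
    mem_nodes.2 ⟨e, ((m e).1 he).1, rfl⟩⟩⟩) ?_, hl.1.inns_eq (fun e he => mem_erase.2
      ⟨((m e).1 he).2.1.1, mem_inns.2 ⟨e, ((m e).1 he).1, rfl⟩⟩) this⟩
  rw [card_erase_of_mem hx] at this
  rw [card_erase_of_mem (mem_erase.2 ⟨h.ne.1.symm, h.mem'⟩), card_erase_of_mem h.mem, h.card]
  omega

variable {bm : ℕ → List Tr → M (List Tr)} {c : ℕ} {g : ℕ → ℕ} {d B b : ℕ} {s : St}

theorem level_vt (h : BmOK bm c g) (hn : n ≤ 2 ^ b) (hB : 2 ^ (c * (b + 1)) ≤ B) (hd : d ≤ b)
    {p x : ℕ} (hp : Nd n A s.par.get s.rc.get p) (np : n ≤ p)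
    (hx : x ∈ nodes (s.rc.get p).1 ∨ x ∈ inns (s.rc.get p).1)
    (z : List (ℕ × ℕ) × List (ℕ × ℕ)) :
    (s.par.get x).1 = p ∧ Vt d B (level bm b s x z) fun q t =>
      (∀ j ∈ q.1, j ∈ z.1 ∨ Ch n A s.par.get s.rc.get j.1 j.2) ∧
      (∀ j ∈ q.2, j ∈ z.2 ∨ A j.1 j.2) ∧
      fl q.2 + rg (s.V n) q.1 + (s.V n x).val = fl z.2 + rg (s.V n) z.1 + (s.V n p).val ∧
      ∃ y, 0 < y ∧ q.2.length = z.2.length + y ∧ q.1.length ≤ z.1.length + 2 * y ∧
        t ≤ y * (4 * g b + 4) := by
  obtain ⟨lv, pk, py, e⟩ := hp.eq np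
  have hy : 0 < (inns (s.rc.get p).1).card := card_pos.2 lv.blo.ne.2
  have yn : (inns (s.rc.get p).1).card ≤ n := by
    simpa using card_le_card (t := range n) fun y hy => mem_range.2 (lv.part.inn y hy).1
  have ev : (s.V n p).val = ∑ q ∈ nodes (s.rc.get p).1, (s.V n q).val +
      (inns (s.rc.get p).1).val := by
    unfold St.V
    rw [e, lv.part.card]
  have len := lv.len
  have tm : ∀ {a t l : ℕ}, a ≤ (s.rc.get p).1.length → t ≤ (a + 1) * g b →
      l ≤ (inns (s.rc.get p).1).card → (s.rc.get p).1.length + (t + l) ≤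
        (inns (s.rc.get p).1).card * (4 * g b + 4) := fun {a t l} h1 h2 h3 => by
    have := Nat.mul_le_mul_right (g b) (show a + 1 ≤ 4 * (inns (s.rc.get p).1).card by omega)
    nlinarith
  have arc : ∀ e ∈ (s.rc.get p).1, (e.2.1 ∈ s.V n e.1 ∧ s.V n e.2.1 = {e.2.1}) ∧
      Ch n A s.par.get s.rc.get e.1 e.2.1 ∧ A e.2.1 e.2.2 := fun e he => by
    obtain ⟨a1, a2, -, a4⟩ := lv.part.arc e he
    exact ⟨⟨a2, s.V_leaf ((pk _ a1).2.2.lt _ a2)⟩, (pk _ a1).2.2.ch _ a2, a4⟩
  unfold level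
  rcases hx with hx | hx
  · rw [(pk x hx).2.1]
    refine ⟨rfl, Vt.tbind' ((Tri_filterP _ _ _).2 ?_)⟩
    simp only [Bool.false_eq_true, if_false]
    have fl' := List.length_filter_le (fun e : Tr => decide (e.1 ≠ x)) (s.rc.get p).1
    refine (h.spec d B b _ (by omega) hB hd).bind ?_
    rintro l t ⟨hl, ht⟩
    obtain ⟨c1, c2⟩ := lv.blo.child hx hl
    have sub : ∀ e ∈ l, e ∈ (s.rc.get p).1 := fun e he => (List.mem_filter.1 (hl.1.1 e he)).1
    obtain ⟨q, h0, h1, h2, h3, h4, h5⟩ := foldl_jobs (s.V n) l z fun e he => (arc e (sub e he)).1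
    have c3 := hl.1.card_inns
    rw [c2] at c3
    refine Vt.of_tri (cn := true) ((Tri_foldP _ _ _ _).2 ?_)
    rw [h0]
    refine ⟨fun j hj => (h1 j hj).imp id ?_, fun j hj => (h2 j hj).imp id ?_, ?_,
      _, hy, by omega, by omega, tm fl' ht (by omega)⟩
    · rintro ⟨e, he, rfl⟩
      exact (arc e (sub e he)).2.1
    · rintro ⟨e, he, rfl⟩
      exact (arc e (sub e he)).2.2
    · rw [h5, hl.1.sum_val, c1, c2, ev, ← add_sum_erase _ _ hx]
      abel
  · rw [py x hx]
    refine ⟨rfl, Vt.tbind' ((Tri_filterP _ _ _).2 ?_)⟩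
    simp only [if_true]
    have fl' := List.length_filter_le (fun e : Tr => decide (e.2.2 ≠ x) &&
      decide (e.1 ≠ (s.rc.get p).2.1.1) && decide (e.1 ≠ (s.rc.get p).2.2.1)) (s.rc.get p).1
    refine (h.spec d B b _ (by omega) hB hd).bind ?_
    rintro l t ⟨hl, ht⟩
    obtain ⟨c1, c2⟩ := lv.blo.inner hx hl
    have sub : ∀ e ∈ l, e ∈ (s.rc.get p).1 := fun e he => (List.mem_filter.1 (hl.1.1 e he)).1
    obtain ⟨q, h0, h1, h2, h3, h4, h5⟩ := foldl_jobs (s.V n) l
      ((s.rc.get p).2.1 :: (s.rc.get p).2.2 :: z.1,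
        ((s.rc.get p).2.1.2, (s.rc.get p).2.2.2) :: z.2) fun e he => (arc e (sub e he)).1
    have c3 := hl.1.card_inns
    rw [c2, card_erase_of_mem hx] at c3
    have k1 := (pk _ lv.blo.mem).2.2
    have k2 := (pk _ lv.blo.mem').2.2
    refine Vt.of_tri (cn := true) ((Tri_foldP _ _ _ _).2 ?_)
    rw [h0]
    simp only [List.length_cons] at h3 h4
    refine ⟨fun j hj => ?_, fun j hj => ?_, ?_, _, hy, by omega, by omega,
      tm fl' ht (by omega)⟩
    · rcases h1 j hj with k | ⟨e, he, rfl⟩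
      · simp only [List.mem_cons] at k
        rcases k with rfl | rfl | k
        · exact .inr (k1.ch _ lv.br.1)
        · exact .inr (k2.ch _ lv.br.2.1)
        · exact .inl k
      · exact .inr (arc e (sub e he)).2.1
    · rcases h2 j hj with k | ⟨e, he, rfl⟩
      · rcases List.mem_cons.1 k with rfl | k
        · exact .inr lv.br.2.2
        · exact .inl k
      · exact .inr (arc e (sub e he)).2.2
    · have a1 := sdiff_val_add (s := s.V n _) (singleton_subset_iff.2 lv.br.1)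
      have a2 := sdiff_val_add (s := s.V n _) (singleton_subset_iff.2 lv.br.2.1)
      have a3 := sdiff_val_add (singleton_subset_iff.2 hx)
      rw [h5, hl.1.sum_val, c1, c2, ev, ← add_sum_erase _ _ lv.blo.mem, ← add_sum_erase _ _
        (mem_erase.2 ⟨lv.blo.ne.1.symm, lv.blo.mem'⟩), fl_cons, rg_cons, rg_cons,
        s.V_leaf (k1.lt _ lv.br.1), s.V_leaf (k2.lt _ lv.br.2.1), s.V_leaf (lv.part.inn x hx).1,
        erase_eq (inns _), ← a3]
      rw [← a1, ← a2]
      simp only [singleton_val]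
      abel

/-- **Expansion.** -/
theorem xpairs_vt (h : BmOK bm c g) (hn : n ≤ 2 ^ b) (hB : 2 ^ (c * (b + 1)) ≤ B) (hd : d ≤ b)
    {jobs out : List (ℕ × ℕ)} (hj : ∀ j ∈ jobs, s.Node n A j.1 ∧ j.2 ∈ s.V n j.1)
    (ho : ∀ e ∈ out, A e.1 e.2) :
    Vt d B (xpairs bm n b s jobs out) fun r t => (∀ e ∈ r, A e.1 e.2) ∧
      fl r = fl out + rg (s.V n) jobs ∧
      t ≤ (rg (s.V n) jobs).card * (2 * g b + 4) + jobs.length := by
  refine Vt.loopM (fun p t => (∀ j ∈ p.1, Ch n A s.par.get s.rc.get j.1 j.2) ∧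
    (∀ e ∈ p.2, A e.1 e.2) ∧ fl p.2 + rg (s.V n) p.1 = fl out + rg (s.V n) jobs ∧
    t + (rg (s.V n) p.1).card * (2 * g b + 4) + p.1.length ≤
      (rg (s.V n) jobs).card * (2 * g b + 4) + jobs.length)
    (fun p => 4 * (rg (s.V n) p.1).card + p.1.length) ?_
    ⟨fun j k => (hj j k).1.2.ch _ (hj j k).2, ho, rfl, by simp⟩ ?_
  · rintro ⟨st, o⟩ t ⟨h1, h2, h3, h4⟩
    dsimp only at h1 h2 h3 h4
    cases st with
    | nil => exact Vt.pure ⟨h2, by simpa using h3, by omega⟩
    | cons j rest =>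
      simp only [xstep, caseL_cons]
      refine Vt.ite (fun e => Vt.pure ?_) fun e => ?_
      · rw [rg_cons, e, sdiff_self, bot_eq_empty, empty_val, zero_add] at h3 h4
        simp only [Sum.elim_inl, rg_cons, e, sdiff_self, bot_eq_empty, empty_val, zero_add,
          List.length_cons] at h4 ⊢
        exact ⟨⟨fun j k => h1 j (by simp [k]), h2, h3, by omega⟩, by omega⟩
      obtain ⟨top, x⟩ := j
      have hc := h1 (top, x) (by simp)
      dsimp only at hc e ⊢
      cases hc with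
      | refl => exact absurd rfl e
      | step p _ hp np hx =>
        obtain ⟨e1, k⟩ := level_vt h hn hB hd (d := d) hp.nd.1 np hx
          ((top, (s.par.get x).1) :: rest, o)
        refine k.bind ?_
        rintro q t' ⟨k1, k2, k3, y, y0, k4, k5, k6⟩
        rw [e1] at k1 k3
        have a1 := sdiff_val_add (s := s.V n top) (t := s.V n p) hp.nd.2.1
        have a2 := sdiff_val_add (s := s.V n top) (t := s.V n x) (Ch.step p x hp np hx).nd.2.1
        have k7 : fl q.2 + rg (s.V n) q.1 = fl o + rg (s.V n) ((top, x) :: rest) := by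
          refine add_right_cancel (b := (s.V n x).val) ?_
          rw [k3, rg_cons, rg_cons]
          dsimp only
          rw [add_comm _ (rg _ rest), add_comm _ (rg _ rest), add_assoc, add_assoc, add_assoc,
            add_assoc, a1, a2]
        have k8 := congrArg Multiset.card k7
        simp only [Multiset.card_add, card_fl, List.length_cons] at k4 k5 k8 h4
        have k9 : (rg (s.V n) ((top, x) :: rest)).card = (rg (s.V n) q.1).card + 2 * y := by omega
        refine Vt.pure ⟨⟨fun j hj => ?_, fun j hj => (k2 j hj).elim (h2 j) id, k7.trans h3, ?_⟩, ?_⟩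
        · rcases k1 j hj with a | a
          · rcases List.mem_cons.1 a with rfl | a
            · exact hp
            · exact h1 j (by simp [a])
          · exact a
        · rw [k9] at h4
          nlinarith
        · simp only [List.length_cons]
          omega
  · have : ∀ l : List (ℕ × ℕ), (rg (s.V n) l).card ≤ (l.map fun j => (s.V n j.1).card).sum := by
      intro l
      induction l with
      | nil => simp
      | cons j l ih =>
        have := card_le_card (sdiff_subset (s := s.V n j.1) (t := s.V n j.2))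
        rw [rg_cons, Multiset.card_add, List.map_cons, List.sum_cons, ← card_def]
        omega
    have := this jobs
    dsimp only
    omega

end Vale.Agent.P305BL
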