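import Vale.Agent.P305BL.Defs

/-!
# Blossoms: the marriage theorem with defect, renaming, and the bound of Tutte and Berge
-/

namespace Vale.Agent.P305BL

open Vale.Agent.P305 Finset

variable {E l : List Tr}

theorem mem_nodes {q : ℕ} : q ∈ nodes E ↔ ∃ e ∈ E, e.1 = q := by simp [nodes]

theorem mem_inns {y : ℕ} : y ∈ inns E ↔ ∃ e ∈ E, e.2.2 = y := by
  simp only [inns, List.mem_toFinset, List.mem_map]

theorem mem_Nb {Y : Finset ℕ} {q : ℕ} : q ∈ Nb E Y ↔ ∃ e ∈ E, e.2.2 ∈ Y ∧ e.1 = q := by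
  simp only [Nb, mem_nodes, List.mem_filter, decide_eq_true_eq, and_assoc]

theorem mem_Nf {P : Finset ℕ} {y : ℕ} : y ∈ Nf E P ↔ ∃ e ∈ E, e.1 ∈ P ∧ e.2.2 = y := by
  simp only [Nf, mem_inns, List.mem_filter, decide_eq_true_eq, and_assoc]

theorem Nb_sub (E : List Tr) (Y : Finset ℕ) : Nb E Y ⊆ nodes E := fun _ h => by
  obtain ⟨e, h1, -, h2⟩ := mem_Nb.1 h
  exact mem_nodes.2 ⟨e, h1, h2⟩

theorem IsM.card_nodes (h : IsM E l) : (nodes l).card = l.length := by
  rw [nodes, List.toFinset_card_of_nodup h.2.1, List.length_map]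

theorem IsM.card_inns (h : IsM E l) : (inns l).card = l.length := by
  rw [inns, List.toFinset_card_of_nodup h.2.2, List.length_map]

theorem IsM.length_le (h : IsM E l) : l.length ≤ E.length :=
  (List.subperm_of_subset (List.Nodup.of_map _ h.2.1) h.1).length_le

theorem IsM.mono {E' : List Tr} (h : IsM E l) (hE : ∀ e ∈ l, e ∈ E') : IsM E' l :=
  ⟨hE, h.2⟩

theorem IsM.sub {l' : List Tr} (h : IsM E l) (hl : l'.Sublist l) : IsM E l' :=
  ⟨fun e he => h.1 e (hl.subset he), h.2.1.sublist (hl.map _), h.2.2.sublist (hl.map _)⟩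

theorem IsM.inj1 (h : IsM E l) {e e' : Tr} (he : e ∈ l) (he' : e' ∈ l) (k : e.1 = e'.1) : e = e' :=
  List.inj_on_of_nodup_map h.2.1 he he' k

theorem IsM.inj2 (h : IsM E l) {e e' : Tr} (he : e ∈ l) (he' : e' ∈ l) (k : e.2.2 = e'.2.2) :
    e = e' := List.inj_on_of_nodup_map h.2.2 he he' k

/-- The marriage theorem with defect. -/
theorem hall_gen (E : List Tr) (f g : Tr → ℕ) (Y : Finset ℕ) (d : ℕ)
    (h : ∀ Y' ⊆ Y, Y'.card ≤ ((E.filter fun e => g e ∈ Y').map f).toFinset.card + d) :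
    ∃ l : List Tr, (∀ e ∈ l, e ∈ E) ∧ (l.map f).Nodup ∧ (l.map g).Nodup ∧
      Y.card ≤ l.length + d := by
  classical
  obtain ⟨φ, inj, hφ⟩ := (all_card_le_biUnion_card_iff_exists_injective (fun y : Y =>
      (((E.filter fun e => g e = y.1).map f).toFinset).disjSum (range d))).1 fun s => by
    rcases s.eq_empty_or_nonempty with rfl | ⟨y0, hy0⟩
    · simp
    have := h (s.image Subtype.val) fun y hy => by
      obtain ⟨z, -, rfl⟩ := mem_image.1 hy
      exact z.2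
    rw [card_image_of_injective _ Subtype.val_injective] at this
    refine this.trans ?_
    rw [← card_range d, ← card_disjSum, card_range]
    refine card_le_card fun x hx => mem_biUnion.2 ?_
    rcases mem_disjSum.1 hx with ⟨a, ha, rfl⟩ | ⟨a, ha, rfl⟩
    · simp only [List.mem_toFinset, List.mem_map, List.mem_filter, decide_eq_true_eq,
        mem_image] at ha
      obtain ⟨e, ⟨h1, z, hz, h2⟩, rfl⟩ := ha
      refine ⟨z, hz, inl_mem_disjSum.2 ?_⟩
      simp only [List.mem_toFinset, List.mem_map, List.mem_filter, decide_eq_true_eq]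
      exact ⟨e, ⟨h1, h2.symm⟩, rfl⟩
    · exact ⟨y0, hy0, inr_mem_disjSum.2 ha⟩
  have ex : ∀ y : Y, ∃ e : Tr, (φ y).isLeft → e ∈ E ∧ g e = y.1 ∧ φ y = .inl (f e) := fun y => by
    rcases mem_disjSum.1 (hφ y) with ⟨a, ha, k⟩ | ⟨a, -, k⟩
    · simp only [List.mem_toFinset, List.mem_map, List.mem_filter, decide_eq_true_eq] at ha
      obtain ⟨e, ⟨h1, h2⟩, rfl⟩ := ha
      exact ⟨e, fun _ => ⟨h1, h2, k.symm⟩⟩
    · exact ⟨(0, 0, 0), fun c => by simp [← k] at c⟩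
  choose ε hε using ex
  have hm : ∀ y ∈ (univ.filter fun y : Y => (φ y).isLeft).toList,
      ε y ∈ E ∧ g (ε y) = y.1 ∧ φ y = .inl (f (ε y)) := fun y hy =>
    hε y (mem_filter.1 (mem_toList.1 hy)).2
  refine ⟨(univ.filter fun y : Y => (φ y).isLeft).toList.map ε, fun e he => ?_, ?_, ?_, ?_⟩
  · obtain ⟨y, hy, rfl⟩ := List.mem_map.1 he
    exact (hm y hy).1
  · rw [List.map_map]
    refine (nodup_toList _).map_on fun y hy z hz k => inj ?_
    rw [(hm y hy).2.2, (hm z hz).2.2]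
    exact congrArg _ k
  · rw [List.map_map]
    refine (nodup_toList _).map_on fun y hy z hz k => Subtype.ext ?_
    rw [← (hm y hy).2.1, ← (hm z hz).2.1]
    exact k
  · rw [List.length_map, length_toList]
    have e := card_filter_add_card_filter_not (s := (univ : Finset Y)) fun y => (φ y).isLeft
    rw [card_univ, Fintype.card_coe] at e
    have : (univ.filter fun y : Y => ¬ (φ y).isLeft).card ≤ ((range d).image
        (Sum.inr : ℕ → ℕ ⊕ ℕ)).card := card_le_card_of_injOn φ (fun y hy => by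
      have k := (mem_filter.1 (mem_coe.1 hy)).2
      rcases mem_disjSum.1 (hφ y) with ⟨a, -, k'⟩ | ⟨a, ha, k'⟩
      · simp [← k'] at k
      · exact mem_coe.2 (mem_image.2 ⟨a, ha, k'⟩)) inj.injOn
    have := card_image_le (s := range d) (f := (Sum.inr : ℕ → ℕ ⊕ ℕ))
    rw [card_range] at this
    omega

/-- All but `d` inner vertices are matched. -/
theorem hall_inn (h : MaxM E l) {Y : Finset ℕ} {d : ℕ}
    (H : ∀ Y' ⊆ Y, Y'.card ≤ (Nb E Y').card + d) : Y.card ≤ l.length + d := by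
  obtain ⟨l', h1, h2, h3, h4⟩ := hall_gen E (fun e => e.1) (fun e => e.2.2) Y d H
  have := h.2 l' ⟨h1, h2, h3⟩
  omega

/-- All but `d` nodes are matched. -/
theorem hall_node (h : MaxM E l) {P : Finset ℕ} {d : ℕ}
    (H : ∀ P' ⊆ P, P'.card ≤ (Nf E P').card + d) : P.card ≤ l.length + d := by
  obtain ⟨l', h1, h2, h3, h4⟩ := hall_gen E (fun e => e.2.2) (fun e => e.1) P d H
  have := h.2 l' ⟨h1, h3, h2⟩
  omega

/-- A matching covers at most as many inner vertices of `Y` as `Y` has neighbours. -/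
theorem IsM.le_Nb (h : IsM E l) {Y : Finset ℕ} (hY : Y ⊆ inns l) : Y.card ≤ (Nb E Y).card := by
  have k := h.sub (List.filter_sublist (p := fun e => decide (e.2.2 ∈ Y)) (l := l))
  refine (card_le_card (t := inns (l.filter fun e => e.2.2 ∈ Y)) fun y hy => ?_).trans ?_
  · obtain ⟨e, he, rfl⟩ := mem_inns.1 (hY hy)
    exact mem_inns.2 ⟨e, List.mem_filter.2 ⟨he, by simpa using hy⟩, rfl⟩
  · rw [k.card_inns, ← k.card_nodes]
    refine card_le_card fun q hq => ?_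
    obtain ⟨e, he, rfl⟩ := mem_nodes.1 hq
    exact mem_Nb.2 ⟨e, k.1 e he, by simpa using (List.mem_filter.1 he).2, rfl⟩

theorem IsM.len_nodes (h : IsM E l) {P : Finset ℕ} (hP : ∀ e ∈ E, e.1 ∈ P) :
    l.length ≤ P.card := by
  rw [← h.card_nodes]
  exact card_le_card fun q hq => by
    obtain ⟨e, he, rfl⟩ := mem_nodes.1 hq
    exact hP e (h.1 e he)

theorem IsM.len_inns (h : IsM E l) {Y : Finset ℕ} (hY : ∀ e ∈ E, e.2.2 ∈ Y) :
    l.length ≤ Y.card := by
  rw [← h.card_inns]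
  exact card_le_card fun q hq => by
    obtain ⟨e, he, rfl⟩ := mem_inns.1 hq
    exact hY e (h.1 e he)

theorem IsM.nodes_eq (h : IsM E l) {P : Finset ℕ} (hP : ∀ e ∈ E, e.1 ∈ P)
    (hl : P.card ≤ l.length) : nodes l = P :=
  eq_of_subset_of_card_le (fun q hq => by
    obtain ⟨e, he, rfl⟩ := mem_nodes.1 hq
    exact hP e (h.1 e he)) (by rwa [h.card_nodes])

theorem IsM.inns_eq (h : IsM E l) {Y : Finset ℕ} (hY : ∀ e ∈ E, e.2.2 ∈ Y)
    (hl : Y.card ≤ l.length) : inns l = Y :=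
  eq_of_subset_of_card_le (fun q hq => by
    obtain ⟨e, he, rfl⟩ := mem_inns.1 hq
    exact hY e (h.1 e he)) (by rwa [h.card_inns])

/-! ### Renaming -/

section ren
variable (f g : ℕ → ℕ) (a : Tr → ℕ)

/-- New names for the nodes, the payload and the inner vertices. -/
def ren (e : Tr) : Tr := (f e.1, a e, g e.2.2)

theorem nodes_map (E : List Tr) : nodes (E.map (ren f g a)) = (nodes E).image f := by
  ext q
  simp only [mem_nodes, mem_image, List.mem_map, ren]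
  constructor
  · rintro ⟨_, ⟨e, he, rfl⟩, rfl⟩
    exact ⟨_, ⟨e, he, rfl⟩, rfl⟩
  · rintro ⟨_, ⟨e, he, rfl⟩, rfl⟩
    exact ⟨_, ⟨e, he, rfl⟩, rfl⟩

theorem inns_map (E : List Tr) : inns (E.map (ren f g a)) = (inns E).image g := by
  ext q
  simp only [mem_inns, mem_image, List.mem_map, ren]
  constructor
  · rintro ⟨_, ⟨e, he, rfl⟩, rfl⟩
    exact ⟨_, ⟨e, he, rfl⟩, rfl⟩
  · rintro ⟨_, ⟨e, he, rfl⟩, rfl⟩
    exact ⟨_, ⟨e, he, rfl⟩, rfl⟩

variable {f g}

theorem Nb_map {S Y : Finset ℕ} (hg : Set.InjOn g S) (hE : inns E ⊆ S) (hY : Y ⊆ S) :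
    Nb (E.map (ren f g a)) (Y.image g) = (Nb E Y).image f := by
  ext q
  simp only [mem_Nb, mem_image, List.mem_map, ren]
  constructor
  · rintro ⟨_, ⟨e, he, rfl⟩, ⟨y, hy, k⟩, rfl⟩
    exact ⟨_, ⟨e, he, hg (hY hy) (hE (mem_inns.2 ⟨e, he, rfl⟩)) k ▸ hy, rfl⟩, rfl⟩
  · rintro ⟨_, ⟨e, he, hy, rfl⟩, rfl⟩
    exact ⟨_, ⟨e, he, rfl⟩, ⟨_, hy, rfl⟩, rfl⟩

theorem Nf_map {S P : Finset ℕ} (hf : Set.InjOn f S) (hE : nodes E ⊆ S) (hP : P ⊆ S) :
    Nf (E.map (ren f g a)) (P.image f) = (Nf E P).image g := by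
  ext q
  simp only [mem_Nf, mem_image, List.mem_map, ren]
  constructor
  · rintro ⟨_, ⟨e, he, rfl⟩, ⟨y, hy, k⟩, rfl⟩
    exact ⟨_, ⟨e, he, hf (hP hy) (hE (mem_nodes.2 ⟨e, he, rfl⟩)) k ▸ hy, rfl⟩, rfl⟩
  · rintro ⟨_, ⟨e, he, hy, rfl⟩, rfl⟩
    exact ⟨_, ⟨e, he, rfl⟩, ⟨_, hy, rfl⟩, rfl⟩

theorem IsM.map (h : IsM E l) (hf : Set.InjOn f (nodes E)) (hg : Set.InjOn g (inns E)) :
    IsM (E.map (ren f g a)) (l.map (ren f g a)) := by
  refine ⟨fun e he => ?_, ?_, ?_⟩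
  · obtain ⟨x, hx, rfl⟩ := List.mem_map.1 he
    exact List.mem_map_of_mem (h.1 x hx)
  · rw [List.map_map]
    exact (List.Nodup.of_map _ h.2.1).map_on fun e he e' he' k => h.inj1 he he'
      (hf (mem_nodes.2 ⟨e, h.1 e he, rfl⟩) (mem_nodes.2 ⟨e', h.1 e' he', rfl⟩) k)
  · rw [List.map_map]
    exact (List.Nodup.of_map _ h.2.1).map_on fun e he e' he' k => h.inj2 he he'
      (hg (mem_inns.2 ⟨e, h.1 e he, rfl⟩) (mem_inns.2 ⟨e', h.1 e' he', rfl⟩) k)

theorem Blo.map {o o' : ℕ} (h : Blo E o o') (hf : Set.InjOn f (nodes E))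
    (hg : Set.InjOn g (inns E)) : Blo (E.map (ren f g a)) (f o) (f o') := by
  have key : ∀ Y ⊆ (inns E).image g, ∃ Z ⊆ inns E, Y = Z.image g ∧ Y.card = Z.card := fun Y hY => by
    obtain ⟨Z, h1, rfl⟩ := subset_image_iff.1 hY
    exact ⟨Z, h1, rfl, card_image_of_injOn (hg.mono h1)⟩
  refine ⟨?_, ?_, ?_, fun Y hY hn => ?_, fun Y hY => ?_⟩
  · rw [nodes_map]; exact mem_image_of_mem _ h.mem
  · rw [nodes_map]; exact mem_image_of_mem _ h.mem'
  · rw [nodes_map, inns_map, card_image_of_injOn hf, card_image_of_injOn hg, h.card]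
  · rw [inns_map] at hY
    obtain ⟨Z, h1, rfl, h2⟩ := key Y hY
    rw [h2, Nb_map a hg Subset.rfl h1, card_image_of_injOn (hf.mono (Nb_sub E Z))]
    exact h.surplus Z h1 (image_nonempty.1 hn)
  · rw [inns_map] at hY
    obtain ⟨Z, h1, rfl, h2⟩ := key Y hY.1
    have e : (Nb E Z).image f ∪ {f o, f o'} = (Nb E Z ∪ {o, o'}).image f := by
      rw [image_union, image_insert, image_singleton]
    rw [h2, Nb_map a hg Subset.rfl h1, e, card_image_of_injOn (hf.mono ?_)]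
    · exact h.minimal Z (Finset.ssubset_iff_subset_ne.2 ⟨h1, fun k => hY.ne (by rw [k])⟩)
    · exact coe_subset.2 (union_subset (Nb_sub E Z) (insert_subset h.mem
        (singleton_subset_iff.2 h.mem')))

end ren

theorem Blo.ne {o o' : ℕ} (h : Blo E o o') : o ≠ o' ∧ (inns E).Nonempty := by
  have hn : (inns E).Nonempty := by
    obtain ⟨e, he, -⟩ := mem_nodes.1 h.mem
    exact ⟨_, mem_inns.2 ⟨e, he, rfl⟩⟩
  refine ⟨fun k => ?_, hn⟩
  have := h.minimal ∅ hn.empty_ssubset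
  simp [Nb, nodes, k] at this

/-! ### The bound of Tutte and Berge -/

theorem even_of_inv {R : Finset ℕ} {m : ℕ → ℕ}
    (h : ∀ v ∈ R, m v ∈ R ∧ m (m v) = v ∧ m v ≠ v) : Even R.card := by
  have := sum_involution (s := R) (f := fun _ => (1 : ZMod 2)) (fun a _ => m a)
    (fun _ _ => by decide) (fun a ha _ => (h a ha).2.2) (fun a ha => (h a ha).1)
    fun a ha => (h a ha).2.1
  rw [sum_const, nsmul_eq_mul, mul_one] at this
  exact ZMod.natCast_eq_zero_iff_even.1 this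

/-- Disjoint odd sets whose edges stay inside or go to `Z`. -/
theorem tb {n : ℕ} {A : ℕ → ℕ → Prop} {m : ℕ → ℕ} (hm : Mat A m) (Q : Finset ℕ)
    (V : ℕ → Finset ℕ) (Z : Finset ℕ) (odd : ∀ p ∈ Q, Odd (V p).card)
    (disj : ∀ p ∈ Q, ∀ q ∈ Q, p ≠ q → Disjoint (V p) (V q)) (lt : ∀ p ∈ Q, ∀ v ∈ V p, v < n)
    (edge : ∀ p ∈ Q, ∀ v ∈ V p, ∀ w, A v w → w ∈ V p ∨ w ∈ Z) :
    Q.card ≤ (exposed n m).card + Z.card := by
  have ex : ∀ p, ∃ v, p ∈ Q → v ∈ V p ∧ (m v = v ∨ m v ∈ Z) := fun p => by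
    by_contra c
    push Not at c
    have hp := (c 0).1
    refine Nat.not_even_iff_odd.2 (odd p hp) (even_of_inv (m := m) fun v hv => ?_)
    have k := (c v).2 hv
    exact ⟨(edge p hp v hv _ (hm.adj v k.1)).resolve_right k.2, hm.inv v, k.1⟩
  choose φ hφ using ex
  rw [← card_disjSum]
  refine card_le_card_of_injOn
    (fun p => if m (φ p) = φ p then Sum.inl (φ p) else Sum.inr (m (φ p))) (fun p hp => ?_)
    fun p hp q hq k => ?_
  · have := hφ p hp
    refine mem_coe.2 ?_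
    dsimp only
    split_ifs with c
    · exact inl_mem_disjSum.2 (mem_filter.2 ⟨mem_range.2 (lt p hp _ this.1), c⟩)
    · exact inr_mem_disjSum.2 (this.2.resolve_left c)
  · have e : φ p = φ q := by
      dsimp only at k
      split_ifs at k with c c'
      · exact Sum.inl.inj k
      · rw [← hm.inv (φ p), Sum.inr.inj k, hm.inv]
    by_contra c
    exact disjoint_left.1 (disj p hp q hq c) (hφ p hp).1 (e ▸ (hφ q hq).1)

end Vale.Agent.P305BL
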