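import Vale.Agent.P305BL.Hall

/-!
# Blossoms: the store and the contraction
-/

namespace Vale.Agent.P305BL

open Vale.Agent.P305 Vale.Agent.P305E Finset

variable {n : ℕ} {A : ℕ → ℕ → Prop} {par par' : ℕ → ℕ × Bool} {rc rc' : ℕ → Rc} {p : ℕ}

theorem Vx_leaf (rc : ℕ → Rc) (h : p < n) : Vx n rc p = {p} := by rw [Vx, if_pos h]

theorem Vx_node (h : n ≤ p) (hk : ∀ q ∈ nodes (rc p).1, q < p) :
    Vx n rc p = (nodes (rc p).1).biUnion (Vx n rc) ∪ inns (rc p).1 := by
  rw [Vx, if_neg (by omega), attach_biUnion, filter_true_of_mem hk]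

theorem Vx_congr (p : ℕ) (h : ∀ q ≤ p, rc' q = rc q) : Vx n rc' p = Vx n rc p := by
  induction p using Nat.strong_induction_on with
  | _ p ih =>
    rw [Vx, Vx, h p le_rfl]
    split_ifs
    · rfl
    · exact congrArg (· ∪ _) (biUnion_congr rfl fun q _ =>
        ih q.1 (mem_filter.1 q.2).2 fun x hx => h x (hx.trans (mem_filter.1 q.2).2.le))

theorem Part.congr {V V' : ℕ → Finset ℕ} {K Y : Finset ℕ} {E : List Tr} (h : Part n A V K Y E)
    (e : ∀ q ∈ K, V' q = V q) : Part n A V' K Y E :=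
  ⟨fun p hp q hq c => by rw [e p hp, e q hq]; exact h.disj p hp q hq c,
    fun y hy => ⟨(h.inn y hy).1, fun p hp => by rw [e p hp]; exact (h.inn y hy).2 p hp⟩,
    fun a ha => by rw [e _ (h.arc a ha).1]; exact h.arc a ha⟩

theorem Lv.congr {V V' : ℕ → Finset ℕ} {r : Rc} (h : Lv n A V r)
    (e : ∀ q ∈ nodes r.1, V' q = V q) : Lv n A V' r :=
  ⟨h.part.congr e, h.blo, by rw [e _ h.blo.mem, e _ h.blo.mem']; exact h.br, h.len⟩

theorem Part.card {V : ℕ → Finset ℕ} {K Y : Finset ℕ} {E : List Tr} (h : Part n A V K Y E) :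
    (K.biUnion V ∪ Y).val = ∑ q ∈ K, (V q).val + Y.val := by
  have pd : (K : Set ℕ).PairwiseDisjoint V := fun p hp q hq c => h.disj p hp q hq c
  rw [← disjUnion_eq_union _ _ (disjoint_left.2 fun v hv hy => by
    obtain ⟨q, hq, k⟩ := mem_biUnion.1 hv
    exact (h.inn v hy).2 q hq k), disjUnion_val,
    ← disjiUnion_eq_biUnion _ _ pd, disjiUnion_val]
  rfl

theorem Nd.eq (h : Nd n A par rc p) (hp : n ≤ p) : Lv n A (Vx n rc) (rc p) ∧
    (∀ q ∈ nodes (rc p).1, q < p ∧ par q = (p, false) ∧ Nd n A par rc q) ∧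
    (∀ y ∈ inns (rc p).1, par y = (p, true)) ∧
    Vx n rc p = (nodes (rc p).1).biUnion (Vx n rc) ∪ inns (rc p).1 := by
  cases h with
  | leaf _ h => omega
  | node _ h lv pk py kids =>
    exact ⟨lv, fun q hq => ⟨(pk q hq).1, (pk q hq).2, kids q hq⟩, py,
      Vx_node h fun q hq => (pk q hq).1⟩

theorem Nd.lt (h : Nd n A par rc p) : ∀ v ∈ Vx n rc p, v < n := by
  induction h with
  | leaf v h => simpa [Vx_leaf rc h] using h
  | node p h lv pk py _ ih =>
    rw [Vx_node h fun q hq => (pk q hq).1]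
    intro v hv
    rcases mem_union.1 hv with k | k
    · obtain ⟨q, hq, k⟩ := mem_biUnion.1 k
      exact ih q hq v k
    · exact (lv.part.inn v k).1

theorem Nd.odd (h : Nd n A par rc p) : Odd (Vx n rc p).card := by
  induction h with
  | leaf v h => simp [Vx_leaf rc h]
  | node p h lv pk py _ ih =>
    rw [Vx_node h fun q hq => (pk q hq).1, card_def, lv.part.card, Multiset.card_add,
      Multiset.card_sum, Nat.odd_add, odd_sum_iff_odd_card_odd, filter_true_of_mem
        (p := fun q => Odd (Vx n rc q).val.card) ih, lv.blo.card, ← card_def, Nat.odd_add_one,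
      Nat.not_odd_iff_even]

theorem Nd.nonempty (h : Nd n A par rc p) : (Vx n rc p).Nonempty := card_pos.1 h.odd.pos

theorem Nd.sub (h : Nd n A par rc p) (hp : n ≤ p) {x : ℕ}
    (hx : x ∈ nodes (rc p).1 ∨ x ∈ inns (rc p).1) :
    Nd n A par rc x ∧ Vx n rc x ⊂ Vx n rc p := by
  obtain ⟨lv, pk, -, e⟩ := h.eq hp
  rw [e]
  rcases hx with hx | hx
  · obtain ⟨y, hy⟩ := lv.blo.ne.2
    exact ⟨(pk x hx).2.2, (ssubset_iff_of_subset ((subset_biUnion_of_mem _ hx).trans
      subset_union_left)).2 ⟨y, mem_union_right _ hy, (lv.part.inn y hy).2 x hx⟩⟩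
  · have := lv.part.inn x hx
    rw [Vx_leaf rc this.1]
    refine ⟨.leaf x this.1, (ssubset_iff_of_subset (by simp [hx])).2
      ⟨_, mem_union_left _ (mem_biUnion.2 ⟨_, lv.blo.mem, lv.br.1⟩), fun c => ?_⟩⟩
    exact this.2 _ lv.blo.mem (mem_singleton.1 c ▸ lv.br.1)

/-- Only the records up to `p` and the parents of the elements inside `p` matter. -/
theorem Nd.congr (h : Nd n A par rc p) (e : ∀ q ≤ p, rc' q = rc q)
    (e' : ∀ x, (Vx n rc x).Nonempty → Vx n rc x ⊂ Vx n rc p → x < p → par' x = par x) :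
    Nd n A par' rc' p := by
  induction h with
  | leaf v h => exact .leaf v h
  | node p h lv pk py kids ih =>
    have hs := fun x => (Nd.node p h lv pk py kids).sub (x := x) h
    refine .node p h ?_ ?_ ?_ ?_ <;> rw [e p le_rfl]
    · exact lv.congr fun q hq => Vx_congr q fun x hx => e x (hx.trans (pk q hq).1.le)
    · exact fun q hq => ⟨(pk q hq).1, by
        rw [e' q (kids q hq).nonempty (hs q (.inl hq)).2 (pk q hq).1, (pk q hq).2]⟩
    · exact fun y hy => by
        rw [e' y (hs y (.inr hy)).1.nonempty (hs y (.inr hy)).2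
          ((lv.part.inn y hy).1.trans_le h), py y hy]
    · exact fun q hq => ih q hq (fun x hx => e x (hx.trans (pk q hq).1.le)) fun x h1 h2 h3 =>
        e' x h1 (h2.trans (hs q (.inl hq)).2) (h3.trans (pk q hq).1)

namespace St

variable {s : St}

theorem V_leaf (s : St) (h : p < n) : s.V n p = {p} := Vx_leaf _ h

theorem Node.leaf (h : p < n) (hn : n ≤ s.nx) : s.Node n A p := ⟨h.trans_le hn, .leaf p h⟩

theorem Node.odd (h : s.Node n A p) : Odd (s.V n p).card := h.2.odd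

theorem Node.lt (h : s.Node n A p) : ∀ v ∈ s.V n p, v < n := h.2.lt

theorem Node.nonempty (h : s.Node n A p) : (s.V n p).Nonempty := h.2.nonempty

theorem Node.rep_mem (h : s.Node n A p) : s.rep n p ∈ s.V n p := by
  unfold St.rep
  split_ifs with c
  · simp [V_leaf s c]
  · obtain ⟨lv, -, -, e⟩ := h.2.eq (not_lt.1 c)
    unfold St.V
    rw [e]
    exact mem_union_left _ (mem_biUnion.2 ⟨_, lv.blo.mem, lv.br.1⟩)

@[simp] theorem init_nx (n : ℕ) : (init n).nx = n := rfl

end St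

theorem foldl_par (c : ℕ) (E : List Tr) (a : Arr (ℕ × Bool)) (x : ℕ) :
    (x ∉ nodes E → x ∉ inns E → (E.foldl (fun (a : Arr (ℕ × Bool)) (e : Tr) =>
      (a.set e.1 (c, false)).set e.2.2 (c, true)) a).get x = a.get x) ∧
    (x ∈ nodes E → x ∉ inns E → (E.foldl (fun (a : Arr (ℕ × Bool)) (e : Tr) =>
      (a.set e.1 (c, false)).set e.2.2 (c, true)) a).get x = (c, false)) ∧
    (x ∉ nodes E → x ∈ inns E → (E.foldl (fun (a : Arr (ℕ × Bool)) (e : Tr) =>
      (a.set e.1 (c, false)).set e.2.2 (c, true)) a).get x = (c, true)) := by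
  induction E using List.reverseRecOn with
  | nil => simp [nodes, inns]
  | append_singleton l e ih =>
    simp only [nodes, inns, List.foldl_append, List.foldl_cons, List.foldl_nil, Arr.get_set,
      List.map_append, List.mem_toFinset, List.mem_append, List.map_cons, List.map_nil,
      List.mem_singleton, not_or] at ih ⊢
    refine ⟨fun h1 h2 => ?_, fun h1 h2 => ?_, fun h1 h2 => ?_⟩
    · rw [if_neg h2.2, if_neg h1.2, ih.1 h1.1 h2.1]
    · rw [if_neg h2.2]
      split_ifs with k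
      · rfl
      · exact ih.2.1 (h1.resolve_right k) h2.1
    · split_ifs with k k'
      · rfl
      · exact absurd k' h1.2
      · exact ih.2.2 h1.1 (h2.resolve_right k)

/-- **Contraction.** -/
theorem contract_tri {c : Cx} {s : St} {r : Rc} (hn : n ≤ s.nx) (hB : s.nx + 1 ≤ c.B)
    (lv : Lv n A (s.V n) r) (kids : ∀ q ∈ nodes r.1, s.Node n A q) :
    Tri c (contract s r) fun s' t => s'.nx = s.nx + 1 ∧ s'.Node n A s.nx ∧
      s'.V n s.nx = (nodes r.1).biUnion (s.V n) ∪ inns r.1 ∧ (∀ p < s.nx, s'.V n p = s.V n p) ∧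
      (∀ p, s.Node n A p → Disjoint (s.V n p) ((nodes r.1).biUnion (s.V n) ∪ inns r.1) →
        s'.Node n A p) ∧ t = r.1.length := by
  simp only [contract, Tri_bind, Tri_num, Tri_foldP, Tri_pure]
  have f := foldl_par s.nx r.1 s.par
  generalize r.1.foldl (fun (a : Arr (ℕ × Bool)) (e : Tr) =>
    (a.set e.1 (s.nx, false)).set e.2.2 (s.nx, true)) s.par = pa at f ⊢
  have e1 : ∀ p < s.nx, ∀ q ≤ p, (s.rc.set s.nx r).get q = s.rc.get q := fun p hp q hq =>
    Arr.get_set_ne _ (by omega) _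
  have e2 : ∀ p < s.nx, Vx n (s.rc.set s.nx r).get p = s.V n p := fun p hp => Vx_congr p (e1 p hp)
  have e3 : (s.rc.set s.nx r).get s.nx = r := Arr.get_set_self _ _ _
  have d : ∀ x ∈ nodes r.1, x ∉ inns r.1 := fun x hx hy =>
    (lv.part.inn x hy).2 x hx (by simp [s.V_leaf (lv.part.inn x hy).1])
  have k : ∀ p, s.Node n A p → (∀ q ∈ nodes r.1, ¬ s.V n q ⊂ s.V n p) →
      (∀ y ∈ inns r.1, y ∉ s.V n p) → Nd n A pa.get (s.rc.set s.nx r).get p :=
    fun p hp h1 h2 => hp.2.congr (e1 p hp.1) fun x _ hx _ => (f x).1 (fun c => h1 x c hx) fun c =>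
      h2 x c (hx.1 (by simp [Vx_leaf _ (lv.part.inn x c).1]))
  refine ⟨hB, trivial, ⟨Nat.lt_succ_self _, .node _ hn ?_ ?_ ?_ ?_⟩, ?_, e2, fun p hp hd =>
    ⟨hp.1.trans (Nat.lt_succ_self _), k p hp (fun q hq c => ?_) fun y hy c => ?_⟩, by simp⟩
  · rw [e3]
    exact lv.congr fun q hq => e2 q (kids q hq).1
  · rw [e3]
    exact fun q hq => ⟨(kids q hq).1, (f q).2.1 hq (d q hq)⟩
  · rw [e3]
    exact fun y hy => (f y).2.2 (fun c => d y c hy) hy
  · rw [e3]
    refine fun q hq => k q (kids q hq) (fun q' hq' c => ?_) fun y hy => (lv.part.inn y hy).2 q hq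
    obtain ⟨v, hv⟩ := (kids q' hq').nonempty
    exact disjoint_left.1 (lv.part.disj q' hq' q hq fun e => c.ne (by rw [e])) hv (c.1 hv)
  · show Vx n (s.rc.set s.nx r).get s.nx = _
    rw [Vx_node hn (by rw [e3]; exact fun q hq => (kids q hq).1), e3]
    exact congrArg (· ∪ _) (biUnion_congr rfl fun q hq => e2 q (kids q hq).1)
  · obtain ⟨v, hv⟩ := (kids q hq).nonempty
    exact disjoint_left.1 hd (c.1 hv) (mem_union_left _ (mem_biUnion.2 ⟨q, hq, hv⟩))
  · exact disjoint_left.1 hd c (mem_union_right _ hy)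

end Vale.Agent.P305BL
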